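import Vale.Agent.Lib.P248.helper37.Orthants

/-!
# P248 pool (helper37): from the orthant theorem to locally anti-blocking bodies

`SRStatement n` is the anti-blocking (orthant) form of the volume product inequality in
dimension `n`, written with Mathlib objects only.  `lab_pi` and `lab_euclid` deduce from it the
inequality `4^n / n! ≤ |K| |K°|` for locally anti-blocking convex bodies, on `Fin n → ℝ` and on
`EuclideanSpace ℝ (Fin n)`.
-/

open MeasureTheory Set

namespace Vale.Agent.Lib.P248.H37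

/-- The orthant theorem in dimension `n`: for a closed convex down-closed subset `A` of the
positive orthant which contains a cube `[0, ε]^n` and is bounded, `|A| |A*| ≥ 1 / n!`, where
`A* = {y ≥ 0 | ⟨x, y⟩ ≤ 1 for all x ∈ A}`. -/
def SRStatement (n : ℕ) : Prop :=
  ∀ A : Set (Fin n → ℝ), IsClosed A → Convex ℝ A → (∀ x ∈ A, ∀ i, 0 ≤ x i) →
    (∀ x ∈ A, ∀ y : Fin n → ℝ, (∀ i, 0 ≤ y i ∧ y i ≤ x i) → y ∈ A) →
    (∃ ε : ℝ, 0 < ε ∧ ∀ y : Fin n → ℝ, (∀ i, 0 ≤ y i ∧ y i ≤ ε) → y ∈ A) →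
    (∃ R : ℝ, ∀ x ∈ A, ∀ i, x i ≤ R) →
    ENNReal.ofReal (1 / (n.factorial : ℝ)) ≤
      volume A * volume {y : Fin n → ℝ | (∀ i, 0 ≤ y i) ∧ ∀ x ∈ A, ∑ i, x i * y i ≤ 1}

/-- The polar set on `Fin n → ℝ` with respect to the standard pairing. -/
def polarPi {n : ℕ} (K : Set (Fin n → ℝ)) : Set (Fin n → ℝ) :=
  {y | ∀ x ∈ K, ∑ i, x i * y i ≤ 1}

lemma continuous_refl {n : ℕ} (s : Fin n → Bool) : Continuous (refl s) :=
  continuous_pi (fun i => continuous_const.mul (continuous_apply i))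

lemma piece_closed {n : ℕ} {K : Set (Fin n → ℝ)} (hK : IsClosed K) (s : Fin n → Bool) :
    IsClosed (piece K s) := by
  have h1 : IsClosed {z : Fin n → ℝ | ∀ i, 0 ≤ z i} := by
    have : {z : Fin n → ℝ | ∀ i, 0 ≤ z i} = ⋂ i, {z : Fin n → ℝ | 0 ≤ z i} := by
      ext z; simp
    rw [this]
    exact isClosed_iInter (fun i => isClosed_le continuous_const (continuous_apply i))
  exact h1.inter (hK.preimage (continuous_refl s))

lemma piece_convex {n : ℕ} {K : Set (Fin n → ℝ)} (hK : Convex ℝ K) (s : Fin n → Bool) :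
    Convex ℝ (piece K s) := by
  intro z hz z' hz' a b ha hb hab
  refine ⟨fun i => ?_, ?_⟩
  · simp only [Pi.add_apply, Pi.smul_apply, smul_eq_mul]
    exact add_nonneg (mul_nonneg ha (hz.1 i)) (mul_nonneg hb (hz'.1 i))
  · have e : refl s (a • z + b • z') = a • refl s z + b • refl s z' := by
      funext i
      simp only [refl_apply, Pi.add_apply, Pi.smul_apply, smul_eq_mul]
      ring
    rw [e]
    exact hK hz.2 hz'.2 ha hb hab

lemma piece_down {n : ℕ} {K : Set (Fin n → ℝ)}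
    (hLAB : ∀ x ∈ K, ∀ y : Fin n → ℝ, (∀ i, 0 ≤ x i * y i ∧ |y i| ≤ |x i|) → y ∈ K)
    (s : Fin n → Bool) :
    ∀ z ∈ piece K s, ∀ y : Fin n → ℝ, (∀ i, 0 ≤ y i ∧ y i ≤ z i) → y ∈ piece K s := by
  intro z hz y hy
  refine ⟨fun i => (hy i).1, hLAB _ hz.2 _ (fun i => ?_)⟩
  simp only [refl_apply]
  constructor
  · have e : sg (s i) * z i * (sg (s i) * y i) = (sg (s i) * sg (s i)) * (z i * y i) := by ring
    rw [e, sg_mul_self, one_mul]
    exact mul_nonneg (hz.1 i) (hy i).1
  · rw [abs_mul, abs_mul, sg_abs, one_mul, one_mul, abs_of_nonneg (hy i).1,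
      abs_of_nonneg (hz.1 i)]
    exact (hy i).2

lemma piece_cube {n : ℕ} {K : Set (Fin n → ℝ)} (h0 : (0 : Fin n → ℝ) ∈ interior K)
    (s : Fin n → Bool) :
    ∃ ε : ℝ, 0 < ε ∧ ∀ y : Fin n → ℝ, (∀ i, 0 ≤ y i ∧ y i ≤ ε) → y ∈ piece K s := by
  obtain ⟨δ, hδ, hball⟩ := Metric.mem_nhds_iff.1 (mem_interior_iff_mem_nhds.1 h0)
  refine ⟨δ / 2, by positivity, fun y hy => ⟨fun i => (hy i).1, hball ?_⟩⟩
  rw [Metric.mem_ball, dist_zero_right]
  have h1 : ‖refl s y‖ ≤ δ / 2 := by
    rw [pi_norm_le_iff_of_nonneg (by positivity)]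
    intro i
    rw [refl_apply, Real.norm_eq_abs, abs_mul, sg_abs, one_mul, abs_of_nonneg (hy i).1]
    exact (hy i).2
  linarith

lemma piece_bdd {n : ℕ} {K : Set (Fin n → ℝ)} (hcomp : IsCompact K) (s : Fin n → Bool) :
    ∃ R : ℝ, ∀ x ∈ piece K s, ∀ i, x i ≤ R := by
  obtain ⟨R, hR⟩ := hcomp.isBounded.exists_norm_le
  refine ⟨R, fun x hx i => ?_⟩
  have h1 := norm_le_pi_norm (refl s x) i
  rw [refl_apply, Real.norm_eq_abs, abs_mul, sg_abs, one_mul, abs_of_nonneg (hx.1 i)] at h1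
  exact h1.trans (hR _ hx.2)

lemma dual_piece {n : ℕ} {K : Set (Fin n → ℝ)}
    (hLAB : ∀ x ∈ K, ∀ y : Fin n → ℝ, (∀ i, 0 ≤ x i * y i ∧ |y i| ≤ |x i|) → y ∈ K)
    (s : Fin n → Bool) :
    {w : Fin n → ℝ | (∀ i, 0 ≤ w i) ∧ ∀ z ∈ piece K s, ∑ i, z i * w i ≤ 1}
      = piece (polarPi K) s := by
  ext w
  constructor
  · rintro ⟨hw, h⟩
    refine ⟨hw, fun x hx => ?_⟩
    obtain ⟨z, hzdef⟩ : ∃ z : Fin n → ℝ, z = fun i => max (sg (s i) * x i) 0 := ⟨_, rfl⟩
    have hzi : ∀ i, z i = max (sg (s i) * x i) 0 := fun i => by rw [hzdef]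
    have hz : z ∈ piece K s := by
      refine ⟨fun i => by rw [hzi]; exact le_max_right _ _, hLAB x hx _ (fun i => ?_)⟩
      rw [refl_apply, hzi]
      rcases le_total 0 (sg (s i) * x i) with h1 | h1
      · have e : sg (s i) * max (sg (s i) * x i) 0 = x i := by
          rw [max_eq_left h1, ← mul_assoc, sg_mul_self, one_mul]
        rw [e]
        exact ⟨mul_self_nonneg _, le_refl _⟩
      · have e : sg (s i) * max (sg (s i) * x i) 0 = 0 := by
          rw [max_eq_right h1, mul_zero]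
        rw [e]
        simp
    have h2 := h z hz
    calc ∑ i, x i * refl s w i = ∑ i, (sg (s i) * x i) * w i := by
          apply Finset.sum_congr rfl
          intro i _
          rw [refl_apply]; ring
      _ ≤ ∑ i, z i * w i := by
          apply Finset.sum_le_sum
          intro i _
          rw [hzi]
          exact mul_le_mul_of_nonneg_right (le_max_left _ _) (hw i)
      _ ≤ 1 := h2
  · rintro ⟨hw, h⟩
    refine ⟨hw, fun z hz => ?_⟩
    have h2 := h (refl s z) hz.2
    have e : ∑ i, refl s z i * refl s w i = ∑ i, z i * w i := by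
      apply Finset.sum_congr rfl
      intro i _
      rw [refl_apply, refl_apply]
      have e' : sg (s i) * z i * (sg (s i) * w i) = (sg (s i) * sg (s i)) * (z i * w i) := by
        ring
      rw [e', sg_mul_self, one_mul]
    rw [e] at h2
    exact h2

lemma isClosed_polarPi {n : ℕ} (K : Set (Fin n → ℝ)) : IsClosed (polarPi K) := by
  have : polarPi K = ⋂ x ∈ K, {y : Fin n → ℝ | ∑ i, x i * y i ≤ 1} := by
    ext y; simp [polarPi]
  rw [this]
  refine isClosed_biInter (fun x _ => isClosed_le ?_ continuous_const)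
  exact continuous_finsetSum _ (fun i _ => continuous_const.mul (continuous_apply i))

/-- Locally anti-blocking bodies on `Fin n → ℝ`: the inequality follows from the orthant
theorem in the same dimension. -/
theorem lab_pi {n : ℕ} (hSR : SRStatement n) {K : Set (Fin n → ℝ)} (hconv : Convex ℝ K)
    (hcomp : IsCompact K) (h0 : (0 : Fin n → ℝ) ∈ interior K)
    (hLAB : ∀ x ∈ K, ∀ y : Fin n → ℝ, (∀ i, 0 ≤ x i * y i ∧ |y i| ≤ |x i|) → y ∈ K) :
    ENNReal.ofReal (4 ^ n / (n.factorial : ℝ)) ≤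
      volume K * volume {y : Fin n → ℝ | ∀ x ∈ K, ∑ i, x i * y i ≤ 1} := by
  have hKm : MeasurableSet K := hcomp.isClosed.measurableSet
  have hPm : MeasurableSet (polarPi K) := (isClosed_polarPi K).measurableSet
  have hs : ∀ s : Fin n → Bool, ENNReal.ofReal (1 / (n.factorial : ℝ))
      ≤ volume (piece K s) * volume (piece (polarPi K) s) := by
    intro s
    have h := hSR (piece K s) (piece_closed hcomp.isClosed s) (piece_convex hconv s)
      (fun x hx => hx.1) (piece_down hLAB s) (piece_cube h0 s) (piece_bdd hcomp s)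
    rw [dual_piece hLAB s] at h
    exact h
  have hcs := ennreal_cs (fun s => volume (piece K s)) (fun s => volume (piece (polarPi K) s))
    _ hs
  have hle : (∑ s, volume (piece K s)) * (∑ s, volume (piece (polarPi K) s))
      ≤ volume K * volume (polarPi K) := mul_le_mul' (orth_sum_le hKm) (orth_sum_le hPm)
  have hconst : ENNReal.ofReal (4 ^ n / (n.factorial : ℝ))
      = (Fintype.card (Fin n → Bool) : ENNReal) ^ 2 * ENNReal.ofReal (1 / (n.factorial : ℝ)) := by
    rw [div_eq_mul_one_div, ENNReal.ofReal_mul (by positivity)]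
    congr 1
    rw [ENNReal.ofReal_pow (by norm_num), Fintype.card_fun, Fintype.card_bool, Fintype.card_fin]
    have h4 : ENNReal.ofReal 4 = 2 ^ 2 := by
      rw [show (4 : ℝ) = ((4 : ℕ) : ℝ) by norm_num, ENNReal.ofReal_natCast]
      norm_num
    rw [h4, Nat.cast_pow, Nat.cast_ofNat, ← pow_mul, ← pow_mul, mul_comm]
  rw [hconst]
  exact hcs.trans hle

/-- Locally anti-blocking bodies in `EuclideanSpace ℝ (Fin n)`: the inequality follows from the
orthant theorem in the same dimension. -/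
theorem lab_euclid {n : ℕ} (hSR : SRStatement n) {K : Set (EuclideanSpace ℝ (Fin n))}
    (hconv : Convex ℝ K) (hcomp : IsCompact K)
    (h0 : (0 : EuclideanSpace ℝ (Fin n)) ∈ interior K)
    (hLAB : ∀ x ∈ K, ∀ y : EuclideanSpace ℝ (Fin n),
      (∀ i, 0 ≤ x i * y i ∧ |y i| ≤ |x i|) → y ∈ K) :
    ENNReal.ofReal (4 ^ n / (n.factorial : ℝ)) ≤
      volume K * volume {y : EuclideanSpace ℝ (Fin n) | ∀ x ∈ K, inner ℝ x y ≤ 1} := by
  obtain ⟨K', hK'def⟩ : ∃ K' : Set (Fin n → ℝ), K' = WithLp.toLp 2 ⁻¹' K := ⟨_, rfl⟩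
  have hmem : ∀ z : Fin n → ℝ, z ∈ K' ↔ WithLp.toLp 2 z ∈ K := fun z => by rw [hK'def]; rfl
  have hK'conv : Convex ℝ K' := by
    intro z hz z' hz' a b ha hb hab
    rw [hmem] at hz hz' ⊢
    rw [WithLp.toLp_add, WithLp.toLp_smul, WithLp.toLp_smul]
    exact hconv hz hz' ha hb hab
  have hK'comp : IsCompact K' := by
    have e : K' = WithLp.ofLp '' K := by
      ext z
      rw [hmem]
      constructor
      · intro hz
        exact ⟨WithLp.toLp 2 z, hz, rfl⟩
      · rintro ⟨x, hx, rfl⟩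
        simpa using hx
    rw [e]
    exact hcomp.image (PiLp.continuous_ofLp 2 _)
  have hK'0 : (0 : Fin n → ℝ) ∈ interior K' := by
    have hopen : IsOpen (WithLp.toLp 2 ⁻¹' interior K : Set (Fin n → ℝ)) :=
      isOpen_interior.preimage (PiLp.continuous_toLp 2 _)
    have hsub : (WithLp.toLp 2 ⁻¹' interior K : Set (Fin n → ℝ)) ⊆ K' := by
      rw [hK'def]; exact preimage_mono interior_subset
    refine interior_maximal hsub hopen ?_
    show WithLp.toLp 2 (0 : Fin n → ℝ) ∈ interior K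
    simpa using h0
  have hK'LAB : ∀ x ∈ K', ∀ y : Fin n → ℝ, (∀ i, 0 ≤ x i * y i ∧ |y i| ≤ |x i|) → y ∈ K' := by
    intro x hx y hy
    rw [hmem] at hx ⊢
    exact hLAB _ hx _ (fun i => by simpa using hy i)
  have hmain := lab_pi hSR hK'conv hK'comp hK'0 hK'LAB
  have hv1 : volume K' = volume K := by
    rw [hK'def]
    exact (PiLp.volume_preserving_toLp (Fin n)).measure_preimage
      hcomp.isClosed.measurableSet.nullMeasurableSet
  have hpolcl : IsClosed {y : EuclideanSpace ℝ (Fin n) | ∀ x ∈ K, inner ℝ x y ≤ 1} := by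
    have : {y : EuclideanSpace ℝ (Fin n) | ∀ x ∈ K, inner ℝ x y ≤ 1}
        = ⋂ x ∈ K, {y : EuclideanSpace ℝ (Fin n) | inner ℝ x y ≤ 1} := by
      ext y; simp
    rw [this]
    exact isClosed_biInter (fun x _ =>
      isClosed_le (continuous_const.inner continuous_id) continuous_const)
  have hpol : {y : Fin n → ℝ | ∀ x ∈ K', ∑ i, x i * y i ≤ 1}
      = WithLp.toLp 2 ⁻¹' {y : EuclideanSpace ℝ (Fin n) | ∀ x ∈ K, inner ℝ x y ≤ 1} := by
    ext w
    simp only [Set.mem_ofPred_eq, mem_preimage]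
    constructor
    · intro h x hx
      have h1 := h (WithLp.ofLp x) (by rw [hmem]; simpa using hx)
      have e : inner ℝ x (WithLp.toLp 2 w) = ∑ i, (WithLp.ofLp x) i * w i := by
        rw [PiLp.inner_apply]
        apply Finset.sum_congr rfl
        intro i _
        simp [mul_comm]
      rw [e]
      exact h1
    · intro h z hz
      have h1 := h (WithLp.toLp 2 z) ((hmem z).1 hz)
      have e : inner ℝ (WithLp.toLp 2 z) (WithLp.toLp 2 w) = ∑ i, z i * w i := by
        rw [PiLp.inner_apply]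
        apply Finset.sum_congr rfl
        intro i _
        simp [mul_comm]
      rw [e] at h1
      exact h1
  have hv2 : volume {y : Fin n → ℝ | ∀ x ∈ K', ∑ i, x i * y i ≤ 1}
      = volume {y : EuclideanSpace ℝ (Fin n) | ∀ x ∈ K, inner ℝ x y ≤ 1} := by
    rw [hpol]
    exact (PiLp.volume_preserving_toLp (Fin n)).measure_preimage
      hpolcl.measurableSet.nullMeasurableSet
  rw [hv1, hv2] at hmain
  exact hmain

end Vale.Agent.Lib.P248.H37
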