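import Vale.Agent.Lib.P248.helper37.LAB

/-!
# P248 pool (helper37): the orthant theorem from the cone inequality

`ConeStatement n` is the cone inequality `∑ x_i |sec_i A| ≤ (n+1) |A|` for closed convex
down-closed subsets of the positive orthant of `Fin (n+1) → ℝ`, written with Mathlib objects
only.  `sr_all` deduces `SRStatement n` for every `n` (Meyer's induction).
-/

open MeasureTheory Set

namespace Vale.Agent.Lib.P248.H37

/-- Closed convex down-closed subsets of the positive orthant which contain a cube and are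
bounded. -/
structure Good {n : ℕ} (A : Set (Fin n → ℝ)) : Prop where
  closed : IsClosed A
  convex : Convex ℝ A
  nonneg : ∀ x ∈ A, ∀ i, 0 ≤ x i
  down : ∀ x ∈ A, ∀ y : Fin n → ℝ, (∀ i, 0 ≤ y i ∧ y i ≤ x i) → y ∈ A
  cube : ∃ ε : ℝ, 0 < ε ∧ ∀ y : Fin n → ℝ, (∀ i, 0 ≤ y i ∧ y i ≤ ε) → y ∈ A
  bdd : ∃ R : ℝ, ∀ x ∈ A, ∀ i, x i ≤ R

/-- The anti-blocking dual. -/
def abDual {n : ℕ} (A : Set (Fin n → ℝ)) : Set (Fin n → ℝ) :=
  {y | (∀ i, 0 ≤ y i) ∧ ∀ x ∈ A, ∑ i, x i * y i ≤ 1}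

/-- The section of `A` by the coordinate hyperplane `x_i = 0`. -/
def sec {n : ℕ} (A : Set (Fin (n + 1) → ℝ)) (i : Fin (n + 1)) : Set (Fin n → ℝ) :=
  {z | (Fin.insertNth i (0 : ℝ) z : Fin (n + 1) → ℝ) ∈ A}

/-- The cone inequality in dimension `n + 1`. -/
def ConeStatement (n : ℕ) : Prop :=
  ∀ A : Set (Fin (n + 1) → ℝ), IsClosed A → Convex ℝ A → (∀ x ∈ A, ∀ i, 0 ≤ x i) →
    (∀ x ∈ A, ∀ y : Fin (n + 1) → ℝ, (∀ i, 0 ≤ y i ∧ y i ≤ x i) → y ∈ A) →
    ∀ x ∈ A, ∑ i, ENNReal.ofReal (x i) *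
        volume {z : Fin n → ℝ | (Fin.insertNth i (0 : ℝ) z : Fin (n + 1) → ℝ) ∈ A}
      ≤ ((n : ENNReal) + 1) * volume A

lemma ins_same {n : ℕ} (i : Fin (n + 1)) (a : ℝ) (z : Fin n → ℝ) :
    (Fin.insertNth i a z : Fin (n + 1) → ℝ) i = a :=
  Fin.insertNth_apply_same (α := fun _ => ℝ) i a z

lemma ins_succ {n : ℕ} (i : Fin (n + 1)) (a : ℝ) (z : Fin n → ℝ) (k : Fin n) :
    (Fin.insertNth i a z : Fin (n + 1) → ℝ) (i.succAbove k) = z k :=
  Fin.insertNth_apply_succAbove (α := fun _ => ℝ) i a z k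

lemma continuous_ins {n : ℕ} (i : Fin (n + 1)) :
    Continuous (fun z : Fin n → ℝ => (Fin.insertNth i (0 : ℝ) z : Fin (n + 1) → ℝ)) :=
  Continuous.finInsertNth (A := fun _ => ℝ) i continuous_const continuous_id

lemma isClosed_nonneg {n : ℕ} : IsClosed {y : Fin n → ℝ | ∀ i, 0 ≤ y i} := by
  have : {y : Fin n → ℝ | ∀ i, 0 ≤ y i} = ⋂ i, {y : Fin n → ℝ | 0 ≤ y i} := by
    ext y; simp
  rw [this]
  exact isClosed_iInter (fun i => isClosed_le continuous_const (continuous_apply i))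

lemma good_abDual {n : ℕ} {A : Set (Fin n → ℝ)} (hA : Good A) : Good (abDual A) := by
  obtain ⟨ε, hε, hcube⟩ := hA.cube
  obtain ⟨R, hR⟩ := hA.bdd
  refine ⟨?_, ?_, fun y hy => hy.1, ?_, ?_, ?_⟩
  · have e : abDual A = {y : Fin n → ℝ | ∀ i, 0 ≤ y i}
        ∩ ⋂ x ∈ A, {y : Fin n → ℝ | ∑ i, x i * y i ≤ 1} := by
      ext y; simp [abDual]
    rw [e]
    refine IsClosed.inter isClosed_nonneg (isClosed_biInter (fun x _ => isClosed_le ?_
      continuous_const))
    exact continuous_finsetSum _ (fun i _ => continuous_const.mul (continuous_apply i))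
  · intro y hy y' hy' a b ha hb hab
    refine ⟨fun i => ?_, fun x hx => ?_⟩
    · simp only [Pi.add_apply, Pi.smul_apply, smul_eq_mul]
      exact add_nonneg (mul_nonneg ha (hy.1 i)) (mul_nonneg hb (hy'.1 i))
    · have e : ∑ i, x i * (a • y + b • y') i
          = a * ∑ i, x i * y i + b * ∑ i, x i * y' i := by
        rw [Finset.mul_sum, Finset.mul_sum, ← Finset.sum_add_distrib]
        apply Finset.sum_congr rfl
        intro i _
        simp only [Pi.add_apply, Pi.smul_apply, smul_eq_mul]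
        ring
      rw [e]
      have h1 := hy.2 x hx
      have h2 := hy'.2 x hx
      nlinarith
  · intro y hy y' hy'
    refine ⟨fun i => (hy' i).1, fun x hx => ?_⟩
    refine le_trans (Finset.sum_le_sum (fun i _ => ?_)) (hy.2 x hx)
    exact mul_le_mul_of_nonneg_left (hy' i).2 (hA.nonneg x hx i)
  · have hR1 : (0 : ℝ) < max R 1 := lt_of_lt_of_le one_pos (le_max_right _ _)
    have hn1 : (0 : ℝ) < (n : ℝ) + 1 := by positivity
    refine ⟨1 / (((n : ℝ) + 1) * max R 1), by positivity,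
      fun y hy => ⟨fun i => (hy i).1, fun x hx => ?_⟩⟩
    have hterm : ∀ i, x i * y i ≤ max R 1 * (1 / (((n : ℝ) + 1) * max R 1)) := fun i =>
      mul_le_mul ((hR x hx i).trans (le_max_left _ _)) (hy i).2 (hy i).1 hR1.le
    calc ∑ i, x i * y i
        ≤ ∑ _i : Fin n, max R 1 * (1 / (((n : ℝ) + 1) * max R 1)) :=
          Finset.sum_le_sum (fun i _ => hterm i)
      _ = (n : ℝ) * (max R 1 * (1 / (((n : ℝ) + 1) * max R 1))) := by simp
      _ = (n : ℝ) / ((n : ℝ) + 1) := by field_simp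
      _ ≤ 1 := by rw [div_le_one hn1]; linarith
  · refine ⟨1 / ε, fun y hy i => ?_⟩
    have hmem : (Pi.single i ε : Fin n → ℝ) ∈ A := by
      apply hcube
      intro j
      rcases eq_or_ne j i with rfl | hji
      · simp [hε.le]
      · simp [Pi.single_eq_of_ne hji, hε.le]
    have h1 := hy.2 _ hmem
    have e : ∑ j, (Pi.single i ε : Fin n → ℝ) j * y j = ε * y i := by
      rw [Finset.sum_eq_single i]
      · simp
      · intro j _ hji
        simp [Pi.single_eq_of_ne hji]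
      · intro h
        exact absurd (Finset.mem_univ i) h
    rw [e] at h1
    rw [le_div_iff₀ hε]
    linarith

lemma good_sec {n : ℕ} {A : Set (Fin (n + 1) → ℝ)} (hA : Good A) (i : Fin (n + 1)) :
    Good (sec A i) := by
  obtain ⟨ε, hε, hcube⟩ := hA.cube
  obtain ⟨R, hR⟩ := hA.bdd
  refine ⟨hA.closed.preimage (continuous_ins i), ?_, ?_, ?_, ⟨ε, hε, ?_⟩, ⟨R, ?_⟩⟩
  · intro z hz z' hz' a b ha hb hab
    show (Fin.insertNth i (0 : ℝ) (a • z + b • z') : Fin (n + 1) → ℝ) ∈ A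
    have e : (Fin.insertNth i (0 : ℝ) (a • z + b • z') : Fin (n + 1) → ℝ)
        = a • (Fin.insertNth i (0 : ℝ) z : Fin (n + 1) → ℝ)
          + b • (Fin.insertNth i (0 : ℝ) z' : Fin (n + 1) → ℝ) := by
      have : ∀ j, (Fin.insertNth i (0 : ℝ) (a • z + b • z') : Fin (n + 1) → ℝ) j
          = (a • (Fin.insertNth i (0 : ℝ) z : Fin (n + 1) → ℝ)
            + b • (Fin.insertNth i (0 : ℝ) z' : Fin (n + 1) → ℝ)) j := by
        rw [Fin.forall_iff_succAbove i]
        constructor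
        · simp only [Pi.add_apply, Pi.smul_apply, smul_eq_mul, ins_same]; ring
        · intro k
          simp only [Pi.add_apply, Pi.smul_apply, smul_eq_mul, ins_succ]
      exact funext this
    rw [e]
    exact hA.convex hz hz' ha hb hab
  · intro z hz k
    have h := hA.nonneg _ hz (i.succAbove k)
    rwa [ins_succ] at h
  · intro z hz y hy
    apply hA.down _ hz
    rw [Fin.forall_iff_succAbove i]
    refine ⟨?_, fun k => ?_⟩
    · rw [ins_same, ins_same]; exact ⟨le_refl _, le_refl _⟩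
    · rw [ins_succ, ins_succ]; exact hy k
  · intro y hy
    apply hcube
    rw [Fin.forall_iff_succAbove i]
    refine ⟨?_, fun k => ?_⟩
    · rw [ins_same]; exact ⟨le_refl _, hε.le⟩
    · rw [ins_succ]; exact hy k
  · intro z hz k
    have h := hR _ hz (i.succAbove k)
    rwa [ins_succ] at h

lemma sec_abDual {n : ℕ} {A : Set (Fin (n + 1) → ℝ)} (hA : Good A) (i : Fin (n + 1)) :
    sec (abDual A) i = abDual (sec A i) := by
  ext w
  constructor
  · rintro ⟨hw, h⟩
    refine ⟨fun k => ?_, fun z hz => ?_⟩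
    · have h1 := hw (i.succAbove k)
      rwa [ins_succ] at h1
    · have h1 := h _ hz
      rw [Fin.sum_univ_succAbove _ i] at h1
      simp only [ins_same, ins_succ, mul_zero, zero_add] at h1
      exact h1
  · rintro ⟨hw, h⟩
    refine ⟨?_, fun x hx => ?_⟩
    · rw [Fin.forall_iff_succAbove i]
      refine ⟨?_, fun k => ?_⟩
      · rw [ins_same]
      · rw [ins_succ]; exact hw k
    · rw [Fin.sum_univ_succAbove _ i]
      simp only [ins_same, ins_succ, mul_zero, zero_add]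
      have hz : (fun k => x (i.succAbove k)) ∈ sec A i := by
        apply hA.down x hx
        rw [Fin.forall_iff_succAbove i]
        refine ⟨?_, fun k => ?_⟩
        · rw [ins_same]; exact ⟨le_refl _, hA.nonneg x hx i⟩
        · rw [ins_succ]; exact ⟨hA.nonneg x hx _, le_refl _⟩
      exact h _ hz

lemma good_vol_pos {n : ℕ} {A : Set (Fin n → ℝ)} (hA : Good A) : 0 < volume A := by
  obtain ⟨ε, hε, hcube⟩ := hA.cube
  have hsub : Icc (0 : Fin n → ℝ) (fun _ => ε) ⊆ A :=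
    fun y hy => hcube y (fun i => ⟨hy.1 i, hy.2 i⟩)
  refine lt_of_lt_of_le ?_ (measure_mono hsub)
  rw [Real.volume_Icc_pi]
  refine pos_iff_ne_zero.2 (Finset.prod_ne_zero_iff.2 (fun i _ => ?_))
  simp [hε]

lemma good_vol_lt_top {n : ℕ} {A : Set (Fin n → ℝ)} (hA : Good A) : volume A < ⊤ := by
  obtain ⟨R, hR⟩ := hA.bdd
  have hsub : A ⊆ Icc (0 : Fin n → ℝ) (fun _ => R) :=
    fun x hx => ⟨fun i => hA.nonneg x hx i, fun i => hR x hx i⟩
  refine lt_of_le_of_lt (measure_mono hsub) ?_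
  rw [Real.volume_Icc_pi]
  exact ENNReal.prod_lt_top (fun i _ => ENNReal.ofReal_lt_top)

lemma cone_to_real {m : ℕ} {x s : Fin m → ℝ} {α : ℝ} (n : ℕ) (hx : ∀ i, 0 ≤ x i)
    (hs : ∀ i, 0 ≤ s i) (hα : 0 ≤ α)
    (h : ∑ i, ENNReal.ofReal (x i) * ENNReal.ofReal (s i)
      ≤ ((n : ENNReal) + 1) * ENNReal.ofReal α) :
    ∑ i, x i * s i ≤ ((n : ℝ) + 1) * α := by
  have e1 : ∑ i, ENNReal.ofReal (x i) * ENNReal.ofReal (s i)
      = ENNReal.ofReal (∑ i, x i * s i) := by
    rw [ENNReal.ofReal_sum_of_nonneg (fun i _ => mul_nonneg (hx i) (hs i))]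
    exact Finset.sum_congr rfl (fun i _ => (ENNReal.ofReal_mul (hx i)).symm)
  have e2 : ((n : ENNReal) + 1) * ENNReal.ofReal α = ENNReal.ofReal (((n : ℝ) + 1) * α) := by
    rw [ENNReal.ofReal_mul (by positivity), ENNReal.ofReal_add (Nat.cast_nonneg n) zero_le_one,
      ENNReal.ofReal_natCast, ENNReal.ofReal_one]
  rw [e1, e2] at h
  exact (ENNReal.ofReal_le_ofReal_iff (by positivity)).1 h

/-- The base case of the orthant theorem. -/
theorem sr_zero : SRStatement 0 := by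
  intro A _ _ _ _ hcube _
  obtain ⟨ε, hε, hc⟩ := hcube
  have hA : A = univ := eq_univ_of_forall (fun y => hc y (fun i => i.elim0))
  have hD : {y : Fin 0 → ℝ | (∀ i, 0 ≤ y i) ∧ ∀ x ∈ A, ∑ i, x i * y i ≤ 1} = univ := by
    apply eq_univ_of_forall
    intro y
    exact ⟨fun i => i.elim0, fun x _ => by simp⟩
  rw [hD, hA]
  have hu : volume (univ : Set (Fin 0 → ℝ)) = 1 := by
    rw [← Set.pi_univ (univ : Set (Fin 0)), volume_pi_pi]
    simp
  rw [hu]
  simp

/-- The induction step of the orthant theorem (Meyer's argument). -/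
theorem sr_succ {n : ℕ} (hSR : SRStatement n) (hcone : ConeStatement n) :
    SRStatement (n + 1) := by
  intro A hcl hcv hnn hdown hcube hbdd
  have hA : Good A := ⟨hcl, hcv, hnn, hdown, hcube, hbdd⟩
  have hD : Good (abDual A) := good_abDual hA
  obtain ⟨α, hαdef⟩ : ∃ α : ℝ, α = (volume A).toReal := ⟨_, rfl⟩
  obtain ⟨α', hα'def⟩ : ∃ α' : ℝ, α' = (volume (abDual A)).toReal := ⟨_, rfl⟩
  have hαpos : 0 < α := by
    rw [hαdef]; exact ENNReal.toReal_pos (good_vol_pos hA).ne' (good_vol_lt_top hA).ne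
  have hα'pos : 0 < α' := by
    rw [hα'def]; exact ENNReal.toReal_pos (good_vol_pos hD).ne' (good_vol_lt_top hD).ne
  have hAe : volume A = ENNReal.ofReal α := by
    rw [hαdef]; exact (ENNReal.ofReal_toReal (good_vol_lt_top hA).ne).symm
  have hDe : volume (abDual A) = ENNReal.ofReal α' := by
    rw [hα'def]; exact (ENNReal.ofReal_toReal (good_vol_lt_top hD).ne).symm
  obtain ⟨σ, hσdef⟩ : ∃ σ : Fin (n + 1) → ℝ, σ = fun i => (volume (sec A i)).toReal :=
    ⟨_, rfl⟩
  obtain ⟨σ', hσ'def⟩ : ∃ σ' : Fin (n + 1) → ℝ,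
      σ' = fun i => (volume (abDual (sec A i))).toReal := ⟨_, rfl⟩
  have hσe : ∀ i, volume (sec A i) = ENNReal.ofReal (σ i) := fun i => by
    rw [hσdef]; exact (ENNReal.ofReal_toReal (good_vol_lt_top (good_sec hA i)).ne).symm
  have hσ'e : ∀ i, volume (abDual (sec A i)) = ENNReal.ofReal (σ' i) := fun i => by
    rw [hσ'def]
    exact (ENNReal.ofReal_toReal (good_vol_lt_top (good_abDual (good_sec hA i))).ne).symm
  have hσnn : ∀ i, 0 ≤ σ i := fun i => by rw [hσdef]; exact ENNReal.toReal_nonneg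
  have hσ'nn : ∀ i, 0 ≤ σ' i := fun i => by rw [hσ'def]; exact ENNReal.toReal_nonneg
  have hind : ∀ i, 1 / (n.factorial : ℝ) ≤ σ i * σ' i := by
    intro i
    have hS := good_sec hA i
    have h := hSR (sec A i) hS.closed hS.convex hS.nonneg hS.down hS.cube hS.bdd
    have h' : ENNReal.ofReal (1 / (n.factorial : ℝ))
        ≤ volume (sec A i) * volume (abDual (sec A i)) := h
    rw [hσe, hσ'e, ← ENNReal.ofReal_mul (hσnn i)] at h'
    exact (ENNReal.ofReal_le_ofReal_iff (mul_nonneg (hσnn i) (hσ'nn i))).1 h'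
  have hconeA : ∀ x ∈ A, ∑ i, x i * σ i ≤ ((n : ℝ) + 1) * α := by
    intro x hx
    have h := hcone A hcl hcv hnn hdown x hx
    have h' : ∑ i, ENNReal.ofReal (x i) * ENNReal.ofReal (σ i)
        ≤ ((n : ENNReal) + 1) * ENNReal.ofReal α := by
      rw [← hAe]
      refine le_trans (le_of_eq ?_) h
      refine Finset.sum_congr rfl (fun i _ => ?_)
      rw [← hσe i]
      rfl
    exact cone_to_real n (fun i => hnn x hx i) hσnn hαpos.le h'
  have hc0 : (0 : ℝ) < ((n : ℝ) + 1) * α := by positivity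
  obtain ⟨v, hvdef⟩ : ∃ v : Fin (n + 1) → ℝ, v = fun i => σ i / (((n : ℝ) + 1) * α) :=
    ⟨_, rfl⟩
  have hvi : ∀ i, v i = σ i / (((n : ℝ) + 1) * α) := fun i => by rw [hvdef]
  have hv : v ∈ abDual A := by
    refine ⟨fun i => by rw [hvi]; exact div_nonneg (hσnn i) hc0.le, fun x hx => ?_⟩
    have h := hconeA x hx
    have e : ∑ i, x i * v i = (∑ i, x i * σ i) / (((n : ℝ) + 1) * α) := by
      rw [Finset.sum_div]
      exact Finset.sum_congr rfl (fun i _ => by rw [hvi, mul_div_assoc])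
    rw [e, div_le_one hc0]
    exact h
  have hconeD : ∑ i, v i * σ' i ≤ ((n : ℝ) + 1) * α' := by
    have h := hcone (abDual A) hD.closed hD.convex hD.nonneg hD.down v hv
    have h' : ∑ i, ENNReal.ofReal (v i) * ENNReal.ofReal (σ' i)
        ≤ ((n : ENNReal) + 1) * ENNReal.ofReal α' := by
      rw [← hDe]
      refine le_trans (le_of_eq ?_) h
      refine Finset.sum_congr rfl (fun i _ => ?_)
      rw [← hσ'e i, ← sec_abDual hA i]
      rfl
    exact cone_to_real n (fun i => hv.1 i) hσ'nn hα'pos.le h'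
  have hf : (0 : ℝ) < n.factorial := by exact_mod_cast n.factorial_pos
  have hsum : ((n : ℝ) + 1) * (1 / (n.factorial : ℝ)) ≤ ∑ i, σ i * σ' i := by
    have h1 : ∑ _i : Fin (n + 1), 1 / (n.factorial : ℝ) ≤ ∑ i, σ i * σ' i :=
      Finset.sum_le_sum (fun i _ => hind i)
    have h2 : ∑ _i : Fin (n + 1), 1 / (n.factorial : ℝ)
        = ((n : ℝ) + 1) * (1 / (n.factorial : ℝ)) := by
      simp
    rw [h2] at h1
    exact h1
  have hsum2 : ∑ i, σ i * σ' i = (((n : ℝ) + 1) * α) * ∑ i, v i * σ' i := by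
    rw [Finset.mul_sum]
    refine Finset.sum_congr rfl (fun i _ => ?_)
    rw [hvi]
    field_simp
  have hfinal : 1 / ((n + 1).factorial : ℝ) ≤ α * α' := by
    have h1 : ((n : ℝ) + 1) * (1 / (n.factorial : ℝ))
        ≤ (((n : ℝ) + 1) * α) * (((n : ℝ) + 1) * α') := by
      rw [hsum2] at hsum
      exact hsum.trans (mul_le_mul_of_nonneg_left hconeD hc0.le)
    have hn1 : (0 : ℝ) < (n : ℝ) + 1 := by positivity
    have h2 : ((n : ℝ) + 1) * (1 / (n.factorial : ℝ))
        ≤ ((n : ℝ) + 1) * (((n : ℝ) + 1) * (α * α')) := by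
      calc ((n : ℝ) + 1) * (1 / (n.factorial : ℝ))
          ≤ (((n : ℝ) + 1) * α) * (((n : ℝ) + 1) * α') := h1
        _ = ((n : ℝ) + 1) * (((n : ℝ) + 1) * (α * α')) := by ring
    have h3 : 1 / (n.factorial : ℝ) ≤ ((n : ℝ) + 1) * (α * α') :=
      le_of_mul_le_mul_left h2 hn1
    rw [Nat.factorial_succ, Nat.cast_mul, Nat.cast_succ, div_le_iff₀ (by positivity)]
    rw [div_le_iff₀ hf] at h3
    calc (1 : ℝ) ≤ ((n : ℝ) + 1) * (α * α') * (n.factorial : ℝ) := h3
      _ = α * α' * (((n : ℝ) + 1) * (n.factorial : ℝ)) := by ring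
  show ENNReal.ofReal (1 / ((n + 1).factorial : ℝ)) ≤ volume A * volume (abDual A)
  rw [hAe, hDe, ← ENNReal.ofReal_mul hαpos.le]
  exact ENNReal.ofReal_le_ofReal hfinal

/-- The orthant theorem in every dimension, from the cone inequality. -/
theorem sr_all (hcone : ∀ n, ConeStatement n) : ∀ n, SRStatement n := by
  intro n
  induction n with
  | zero => exact sr_zero
  | succ k ih => exact sr_succ ih (hcone k)

end Vale.Agent.Lib.P248.H37
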