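import Mathlib
import Vale.Agent.Lib.P248.helper37.SRInduction

/-!
# P248 (helper37): definitions for the volume product of anti-blocking bodies about a point

Everything lives on `Fin m → ℝ`.  `polZ A z` is the polar of `A` about `z`, `posZ A z` its part in
the closed positive orthant, `polK A z k` its part with exactly `k` negative coordinates.
`Adm A z` says that `A` is an anti-blocking body (`H37.Good`) and `z` an interior point of it.
`LT m` is a tree whose nodes carry two real labels; `tree m A z` is the tree of the iterated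
coordinate sections of `A`.
-/

open MeasureTheory Set

namespace Vale.Agent.Lib.P248.H37Q

open Vale.Agent.Lib.P248.H37

/-- The polar of `A` about the point `z`. -/
def polZ {m : ℕ} (A : Set (Fin m → ℝ)) (z : Fin m → ℝ) : Set (Fin m → ℝ) :=
  {y | ∀ x ∈ A, ∑ i, (x i - z i) * y i ≤ 1}

/-- The part of the polar of `A` about `z` in the closed positive orthant. -/
def posZ {m : ℕ} (A : Set (Fin m → ℝ)) (z : Fin m → ℝ) : Set (Fin m → ℝ) :=
  {y | (∀ i, 0 ≤ y i) ∧ ∀ x ∈ A, ∑ i, (x i - z i) * y i ≤ 1}

/-- `A` is closed, convex, down-closed in the positive orthant, bounded, contains a cube, and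
`z` is a point with positive coordinates such that `z + (ε, …, ε)` is still in `A`. -/
structure Adm {m : ℕ} (A : Set (Fin m → ℝ)) (z : Fin m → ℝ) : Prop where
  good : Good A
  pos : ∀ i, 0 < z i
  room : ∃ ε : ℝ, 0 < ε ∧ (fun i => z i + ε) ∈ A

/-- The number of negative coordinates of `y`. -/
noncomputable def negCount {m : ℕ} (y : Fin m → ℝ) : ℕ := (Finset.univ.filter (fun i => y i < 0)).card

/-- The part of the polar of `A` about `z` with exactly `k` negative coordinates. -/
def polK {m : ℕ} (A : Set (Fin m → ℝ)) (z : Fin m → ℝ) (k : ℕ) : Set (Fin m → ℝ) :=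
  {y | y ∈ polZ A z ∧ negCount y = k}

/-- The volume of `A` as a real number. -/
noncomputable def vA {m : ℕ} (A : Set (Fin m → ℝ)) : ℝ := (volume A).toReal

/-- The volume of the positive part of the polar of `A` about `z` as a real number. -/
noncomputable def vT {m : ℕ} (A : Set (Fin m → ℝ)) (z : Fin m → ℝ) : ℝ :=
  (volume (posZ A z)).toReal

/-- Trees of depth `m` in which a node of height `m + 1` has `m + 1` children and two real
labels. -/
inductive LT : ℕ → Type
  | leaf : LT 0
  | node {m : ℕ} (u b : ℝ) (ch : Fin (m + 1) → LT m) : LT (m + 1)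

namespace LT

/-- The first label of the root (`1` for a leaf). -/
def u : {m : ℕ} → LT m → ℝ
  | _, leaf => 1
  | _, node u _ _ => u

/-- The second label of the root (`1` for a leaf). -/
def b : {m : ℕ} → LT m → ℝ
  | _, leaf => 1
  | _, node _ b _ => b

/-- The sum of the first labels over the nodes at depth `k`. -/
noncomputable def Om : ℕ → {m : ℕ} → LT m → ℝ
  | 0, _, t => t.u
  | _ + 1, _, leaf => 0
  | k + 1, _, node _ _ ch => ∑ i, Om k (ch i)

/-- All labels are positive and at every node `∑ (1 + u_child / u) * b_child ≤ b`. -/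
def Ok : {m : ℕ} → LT m → Prop
  | _, leaf => True
  | _, node u b ch => 0 < u ∧ 0 < b ∧ (∀ i, Ok (ch i)) ∧ ∑ i, (1 + (ch i).u / u) * (ch i).b ≤ b

end LT

/-- The tree of the iterated coordinate sections of `A`, with labels
`u = m! * |posZ A z| * ∏ z i` and `b = m! * |A| / ∏ z i`. -/
noncomputable def tree : (m : ℕ) → Set (Fin m → ℝ) → (Fin m → ℝ) → LT m
  | 0, _, _ => LT.leaf
  | m + 1, A, z =>
    LT.node (((m + 1).factorial : ℝ) * vT A z * ∏ i, z i)
      (((m + 1).factorial : ℝ) * vA A / ∏ i, z i)
      (fun i => tree m (sec A i) (fun k => z (i.succAbove k)))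

end Vale.Agent.Lib.P248.H37Q
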