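import Vale.Agent.Lib.P248.helper37.SRInduction
import Vale.Agent.Lib.P248.helper55.ABCone

/-!
# P248 pool (helper37): the volume product inequality for locally anti-blocking bodies

Stitching: helper55's cone inequality `H55.ab_cone_ineq` gives `ConeStatement n` for every `n`,
hence the orthant theorem `SRStatement n` (`sr_all`), hence the inequality
`4^n / n! ≤ |K| |K°|` for locally anti-blocking convex bodies (`lab_euclid`).
-/

open MeasureTheory Set

namespace Vale.Agent.Lib.P248.H37

/-- The cone inequality in every dimension (from `H55.ab_cone_ineq`; the case of infinite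
volume is trivial). -/
theorem cone_all (n : ℕ) : ConeStatement n := by
  intro A hcl hcv hnn hdown x hx
  by_cases hfin : volume A = ⊤
  · have h1 : ((n : ENNReal) + 1) * volume A = ⊤ := by
      rw [hfin]
      exact ENNReal.mul_top (by simp)
    rw [h1]
    exact le_top
  · exact Vale.Agent.Lib.P248.H55.ab_cone_ineq n A hcl hcv hnn
      (fun p hp q hq0 hq => hdown p hp q (fun i => ⟨hq0 i, hq i⟩)) hfin x hx

/-- The orthant theorem (Saint-Raymond, anti-blocking form) in every dimension. -/
theorem sr_statement (n : ℕ) : SRStatement n := sr_all cone_all n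

/-- **Volume product inequality for locally anti-blocking bodies.**  If `K` is a compact convex
set in `EuclideanSpace ℝ (Fin n)` with the origin in its interior and such that with every
point `x` it contains every `y` whose coordinates lie between `0` and those of `x`, then
`4^n / n! ≤ |K| |K°|`. -/
theorem locally_anti_blocking {n : ℕ} {K : Set (EuclideanSpace ℝ (Fin n))}
    (hconv : Convex ℝ K) (hcomp : IsCompact K)
    (h0 : (0 : EuclideanSpace ℝ (Fin n)) ∈ interior K)
    (hLAB : ∀ x ∈ K, ∀ y : EuclideanSpace ℝ (Fin n),
      (∀ i, 0 ≤ x i * y i ∧ |y i| ≤ |x i|) → y ∈ K) :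
    ENNReal.ofReal (4 ^ n / (n.factorial : ℝ)) ≤
      volume K * volume {y : EuclideanSpace ℝ (Fin n) | ∀ x ∈ K, inner ℝ x y ≤ 1} :=
  lab_euclid (sr_statement n) hconv hcomp h0 hLAB

end Vale.Agent.Lib.P248.H37
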