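import Mathlib

/-!
# P248: a one-variable inequality for concave profiles

For a concave, antitone, nonnegative profile `a` on `[0, h]`, a point `t0` of `[0, h]` and
`0 ≤ r0 ≤ a t0`:
`t0 * a 0 ^ (m + 1) + (m + 1) * r0 * ∫ a ^ m ≤ (m + 2) * ∫ a ^ (m + 1)`.
-/

open MeasureTheory Set

namespace Vale.Agent.Lib.P248.H37

/-- For nonnegative `x`, `y`: `y ^ (m + 1) + (m + 1) * x * y ^ m ≤ (x + y) ^ (m + 1)`. -/
lemma pow_succ_add_ge {x y : ℝ} (hx : 0 ≤ x) (hy : 0 ≤ y) (m : ℕ) :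
    y ^ (m + 1) + (m + 1) * x * y ^ m ≤ (x + y) ^ (m + 1) := by
  induction m with
  | zero => simp; linarith
  | succ k ih =>
    have h1 : (x + y) ^ (k + 1 + 1) = (x + y) ^ (k + 1) * (x + y) := pow_succ _ _
    rw [h1]
    have h2 : (y ^ (k + 1) + (k + 1) * x * y ^ k) * (x + y) ≤ (x + y) ^ (k + 1) * (x + y) :=
      mul_le_mul_of_nonneg_right ih (add_nonneg hx hy)
    refine le_trans ?_ h2
    have h3 : 0 ≤ ((k : ℝ) + 1) * x ^ 2 * y ^ k := by positivity
    have h4 : (y ^ (k + 1) + ((k : ℝ) + 1) * x * y ^ k) * (x + y)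
        - (y ^ (k + 1 + 1) + (((k + 1 : ℕ) : ℝ) + 1) * x * y ^ (k + 1))
        = ((k : ℝ) + 1) * x ^ 2 * y ^ k := by
      push_cast
      ring
    linarith

theorem cone_ineq {h : ℝ} (hh : 0 < h) {a : ℝ → ℝ}
    (hc : ConcaveOn ℝ (Icc 0 h) a) (hanti : AntitoneOn a (Icc 0 h))
    (hpos : ∀ t ∈ Icc 0 h, 0 ≤ a t) (m : ℕ) {t0 r0 : ℝ} (ht0 : t0 ∈ Icc 0 h)
    (hr0 : 0 ≤ r0) (hr0' : r0 ≤ a t0) :
    t0 * a 0 ^ (m + 1) + (m + 1) * r0 * (∫ t in (0:ℝ)..h, a t ^ m) ≤
      (m + 2) * ∫ t in (0:ℝ)..h, a t ^ (m + 1) := by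
  have h0mem : (0:ℝ) ∈ Icc 0 h := ⟨le_refl _, hh.le⟩
  have hhmem : h ∈ Icc (0:ℝ) h := ⟨hh.le, le_refl _⟩
  have hint : ∀ k : ℕ, IntervalIntegrable (fun t => a t ^ k) volume 0 h := by
    intro k
    apply AntitoneOn.intervalIntegrable
    rw [uIcc_of_le hh.le]
    intro x hx y hy hxy
    exact pow_le_pow_left₀ (hpos y hy) (hanti hx hy hxy) k
  have hI0 : ∀ k : ℕ, 0 ≤ ∫ t in (0:ℝ)..h, a t ^ k := by
    intro k
    exact intervalIntegral.integral_nonneg hh.le (fun u hu => pow_nonneg (hpos u hu) k)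
  obtain ⟨Im, hIm⟩ : ∃ Im : ℝ, Im = ∫ t in (0:ℝ)..h, a t ^ m := ⟨_, rfl⟩
  obtain ⟨Im1, hIm1⟩ : ∃ Im1 : ℝ, Im1 = ∫ t in (0:ℝ)..h, a t ^ (m + 1) := ⟨_, rfl⟩
  rw [← hIm, ← hIm1]
  have hIm1nn : 0 ≤ Im1 := by rw [hIm1]; exact hI0 (m + 1)
  -- the inequality with a parameter `lam` in `[0, 1)`
  have key : ∀ lam : ℝ, 0 ≤ lam → lam < 1 →
      t0 * a 0 ^ (m + 1) * (1 - (1 - lam) * t0 / h) ^ (m + 1)
        + (m + 1) * r0 * lam ^ (m + 1) * Im ≤ (m + 2) * Im1 := by
    intro lam hl0 hl1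
    have h1l : 0 < 1 - lam := by linarith
    obtain ⟨c, hcdef⟩ : ∃ c : ℝ, c = (1 - lam) * t0 := ⟨_, rfl⟩
    obtain ⟨d, hddef⟩ : ∃ d : ℝ, d = c + lam * h := ⟨_, rfl⟩
    have hc0 : 0 ≤ c := by rw [hcdef]; exact mul_nonneg h1l.le ht0.1
    have hct0 : c ≤ t0 := by
      have : (1 - lam) * t0 ≤ 1 * t0 := mul_le_mul_of_nonneg_right (by linarith) ht0.1
      rw [hcdef]; linarith
    have hch : c ≤ h := hct0.trans ht0.2
    have hcd : c ≤ d := by have := mul_nonneg hl0 hh.le; rw [hddef]; linarith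
    have hdh : d ≤ h := by
      have : (1 - lam) * t0 ≤ (1 - lam) * h := mul_le_mul_of_nonneg_left ht0.2 h1l.le
      rw [hddef, hcdef]; linarith
    have hcmem : c ∈ Icc 0 h := ⟨hc0, hch⟩
    have hd0 : 0 ≤ d := hc0.trans hcd
    have hint1 : IntervalIntegrable (fun t => a t ^ (m + 1)) volume 0 c :=
      (hint (m + 1)).mono_set (by
        rw [uIcc_of_le hc0, uIcc_of_le hh.le]; exact Icc_subset_Icc le_rfl hch)
    have hint2 : IntervalIntegrable (fun t => a t ^ (m + 1)) volume c d :=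
      (hint (m + 1)).mono_set (by
        rw [uIcc_of_le hcd, uIcc_of_le hh.le]; exact Icc_subset_Icc hc0 hdh)
    have hint3 : IntervalIntegrable (fun t => a t ^ (m + 1)) volume d h :=
      (hint (m + 1)).mono_set (by
        rw [uIcc_of_le hdh, uIcc_of_le hh.le]; exact Icc_subset_Icc hd0 le_rfl)
    have hsplit : Im1 = (∫ t in (0:ℝ)..c, a t ^ (m + 1)) + (∫ t in c..d, a t ^ (m + 1))
        + ∫ t in d..h, a t ^ (m + 1) := by
      rw [intervalIntegral.integral_add_adjacent_intervals hint1 hint2,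
        intervalIntegral.integral_add_adjacent_intervals (hint1.trans hint2) hint3, hIm1]
    have h3 : 0 ≤ ∫ t in d..h, a t ^ (m + 1) :=
      intervalIntegral.integral_nonneg hdh
        (fun u hu => pow_nonneg (hpos u ⟨hd0.trans hu.1, hu.2⟩) _)
    -- first piece
    have hch' : 0 ≤ c / h := div_nonneg hc0 hh.le
    have hch'' : c / h ≤ 1 := (div_le_one hh).2 hch
    have hac : (1 - c / h) * a 0 ≤ a c := by
      have hcc := hc.2 h0mem hhmem (show 0 ≤ 1 - c / h by linarith) hch' (by ring)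
      have e : (1 - c / h) • (0:ℝ) + (c / h) • h = c := by
        simp only [smul_eq_mul, mul_zero, zero_add]
        field_simp
      rw [e] at hcc
      have hah : 0 ≤ a h := hpos h hhmem
      simp only [smul_eq_mul] at hcc
      nlinarith [mul_nonneg hch' hah]
    have hac0 : 0 ≤ (1 - c / h) * a 0 := mul_nonneg (by linarith) (hpos 0 h0mem)
    have h1 : c * ((1 - c / h) * a 0) ^ (m + 1) ≤ ∫ t in (0:ℝ)..c, a t ^ (m + 1) := by
      have hconst : ∫ _t in (0:ℝ)..c, ((1 - c / h) * a 0) ^ (m + 1)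
          = c * ((1 - c / h) * a 0) ^ (m + 1) := by
        rw [intervalIntegral.integral_const]; simp
      rw [← hconst]
      apply intervalIntegral.integral_mono_on hc0 intervalIntegrable_const hint1
      intro x hx
      have hxmem : x ∈ Icc 0 h := ⟨hx.1, hx.2.trans hch⟩
      have hax : a c ≤ a x := hanti hxmem hcmem hx.2
      exact pow_le_pow_left₀ hac0 (hac.trans hax) _
    -- middle piece
    have hsub : lam * ∫ t in (0:ℝ)..h, a (c + lam * t) ^ (m + 1)
        = ∫ t in c..d, a t ^ (m + 1) := by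
      have hs := intervalIntegral.smul_integral_comp_add_mul (a := (0:ℝ)) (b := h)
        (fun t => a t ^ (m + 1)) lam c
      simp only [smul_eq_mul, mul_zero, add_zero] at hs
      rw [hddef]
      exact hs
    have hmid_pt : ∀ t ∈ Icc (0:ℝ) h,
        lam ^ (m + 1) * a t ^ (m + 1) + (m + 1) * ((1 - lam) * r0) * lam ^ m * a t ^ m
          ≤ a (c + lam * t) ^ (m + 1) := by
      intro t ht
      have hconc := hc.2 ht0 ht h1l.le hl0 (by ring)
      simp only [smul_eq_mul] at hconc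
      rw [← hcdef] at hconc
      have hx : 0 ≤ (1 - lam) * r0 := mul_nonneg h1l.le hr0
      have hy : 0 ≤ lam * a t := mul_nonneg hl0 (hpos t ht)
      have hle : (1 - lam) * r0 + lam * a t ≤ a (c + lam * t) := by
        have : (1 - lam) * r0 ≤ (1 - lam) * a t0 := mul_le_mul_of_nonneg_left hr0' h1l.le
        linarith
      have hp := pow_succ_add_ge hx hy m
      have hp2 : ((1 - lam) * r0 + lam * a t) ^ (m + 1) ≤ a (c + lam * t) ^ (m + 1) :=
        pow_le_pow_left₀ (add_nonneg hx hy) hle _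
      calc lam ^ (m + 1) * a t ^ (m + 1) + (m + 1) * ((1 - lam) * r0) * lam ^ m * a t ^ m
          = (lam * a t) ^ (m + 1) + (m + 1) * ((1 - lam) * r0) * (lam * a t) ^ m := by
            rw [mul_pow, mul_pow]; ring
        _ ≤ ((1 - lam) * r0 + lam * a t) ^ (m + 1) := hp
        _ ≤ a (c + lam * t) ^ (m + 1) := hp2
    have hintL : IntervalIntegrable (fun t => a (c + lam * t) ^ (m + 1)) volume 0 h := by
      apply AntitoneOn.intervalIntegrable
      rw [uIcc_of_le hh.le]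
      intro x hx y hy hxy
      have hxm : c + lam * x ∈ Icc 0 h :=
        ⟨by have := mul_nonneg hl0 hx.1; linarith,
         by have := mul_le_mul_of_nonneg_left hx.2 hl0; rw [hddef] at hdh; linarith⟩
      have hym : c + lam * y ∈ Icc 0 h :=
        ⟨by have := mul_nonneg hl0 hy.1; linarith,
         by have := mul_le_mul_of_nonneg_left hy.2 hl0; rw [hddef] at hdh; linarith⟩
      have hle : c + lam * x ≤ c + lam * y := by
        have := mul_le_mul_of_nonneg_left hxy hl0; linarith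
      exact pow_le_pow_left₀ (hpos _ hym) (hanti hxm hym hle) _
    have hmid : lam ^ (m + 1) * Im1 + (m + 1) * ((1 - lam) * r0) * lam ^ m * Im
        ≤ ∫ t in (0:ℝ)..h, a (c + lam * t) ^ (m + 1) := by
      have hmo := intervalIntegral.integral_mono_on hh.le
        (((hint (m + 1)).const_mul (lam ^ (m + 1))).add
          ((hint m).const_mul (((m : ℝ) + 1) * ((1 - lam) * r0) * lam ^ m))) hintL hmid_pt
      rw [intervalIntegral.integral_add ((hint (m + 1)).const_mul _) ((hint m).const_mul _),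
        intervalIntegral.integral_const_mul, intervalIntegral.integral_const_mul,
        ← hIm, ← hIm1] at hmo
      exact hmo
    have h2 : lam * (lam ^ (m + 1) * Im1 + (m + 1) * ((1 - lam) * r0) * lam ^ m * Im)
        ≤ ∫ t in c..d, a t ^ (m + 1) := by
      rw [← hsub]; exact mul_le_mul_of_nonneg_left hmid hl0
    have hbern : 1 - lam ^ (m + 2) ≤ (m + 2) * (1 - lam) := by
      have hb := one_add_mul_le_pow (show (-2:ℝ) ≤ lam - 1 by linarith) (m + 2)
      have e : (1:ℝ) + (lam - 1) = lam := by ring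
      rw [e] at hb
      push_cast at hb
      linarith
    have e1 : c * ((1 - c / h) * a 0) ^ (m + 1)
        = (1 - lam) * (t0 * a 0 ^ (m + 1) * (1 - (1 - lam) * t0 / h) ^ (m + 1)) := by
      rw [hcdef, mul_pow]; ring
    have e2 : lam * (lam ^ (m + 1) * Im1 + (m + 1) * ((1 - lam) * r0) * lam ^ m * Im)
        = lam ^ (m + 2) * Im1 + (1 - lam) * ((m + 1) * r0 * lam ^ (m + 1) * Im) := by ring
    have hsum : c * ((1 - c / h) * a 0) ^ (m + 1)
        + lam * (lam ^ (m + 1) * Im1 + (m + 1) * ((1 - lam) * r0) * lam ^ m * Im) ≤ Im1 := by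
      linarith [h1, h2, h3, hsplit]
    rw [e1, e2] at hsum
    have hb2 : (1 - lam ^ (m + 2)) * Im1 ≤ (m + 2) * (1 - lam) * Im1 :=
      mul_le_mul_of_nonneg_right hbern hIm1nn
    have hmain : (1 - lam) * (t0 * a 0 ^ (m + 1) * (1 - (1 - lam) * t0 / h) ^ (m + 1)
        + (m + 1) * r0 * lam ^ (m + 1) * Im) ≤ (1 - lam) * ((m + 2) * Im1) := by
      generalize t0 * a 0 ^ (m + 1) * (1 - (1 - lam) * t0 / h) ^ (m + 1) = X at hsum ⊢
      generalize ((m : ℝ) + 1) * r0 * lam ^ (m + 1) * Im = Y at hsum ⊢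
      generalize lam ^ (m + 2) = L at hsum hb2
      linarith
    exact le_of_mul_le_mul_left hmain h1l
  -- let `lam` tend to `1` from the left
  obtain ⟨R, hR⟩ : ∃ R : ℝ → ℝ, R = fun lam => t0 * a 0 ^ (m + 1)
      * (1 - (1 - lam) * t0 / h) ^ (m + 1) + (m + 1) * r0 * lam ^ (m + 1) * Im := ⟨_, rfl⟩
  have hRc : Continuous R := by rw [hR]; fun_prop
  have hR1 : R 1 = t0 * a 0 ^ (m + 1) + (m + 1) * r0 * Im := by
    rw [hR]; simp
  have hlim : Filter.Tendsto R (nhdsWithin 1 (Iio 1)) (nhds (R 1)) :=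
    (hRc.tendsto 1).mono_left nhdsWithin_le_nhds
  have hev : ∀ᶠ lam in nhdsWithin (1:ℝ) (Iio 1), R lam ≤ (m + 2) * Im1 := by
    filter_upwards [Ioo_mem_nhdsLT (show (0:ℝ) < 1 by norm_num)] with lam hlam
    rw [hR]
    exact key lam hlam.1.le hlam.2
  have hfin := le_of_tendsto hlim hev
  rw [hR1] at hfin
  exact hfin

end Vale.Agent.Lib.P248.H37
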