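import Mathlib
import Vale.Agent.Lib.P248.helper1.ConeAux

/-!
Volume of a cone over a base: at most (h / (n + 1)) times the volume of the base
(pool job 426, second copy).
-/

namespace Vale.Agent.Lib.P248.H37C

open MeasureTheory Set
open scoped ENNReal
open Vale.Agent.Lib.P227 Vale.Agent.Lib.P248.H1

/-- Off the height `h`, the section of the cone at height `t` is empty outside `[0, h)` and
lies in a homothetic copy of the base inside it. -/
theorem sec_coneE_le {n : ℕ} (D : Set (EuclideanSpace ℝ (Fin n)))
    (c : EuclideanSpace ℝ (Fin n)) (h : ℝ) (hh : 0 < h) (t : ℝ) (ht : t ≠ h) :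
    volume (sec t (coneE D c h)) ≤
      (Ico (0:ℝ) h).indicator (fun s => ENNReal.ofReal ((1 - s / h) ^ n) * volume D) t := by
  by_cases hmem : t ∈ Ico (0:ℝ) h
  · rw [indicator_of_mem hmem]
    have hr1 : t / h < 1 := (div_lt_one hh).mpr hmem.2
    have hsub : sec t (coneE D c h) ⊆ (AffineMap.homothety c (1 - t / h)) '' D := by
      rintro w ⟨d, hd, r, hr0, hr1', hw⟩
      have h0 : t = r * h := by
        have h00 := congrArg (fun x : EuclideanSpace ℝ (Fin (n + 1)) => x 0) hw
        simpa [ecomb_zero] using h00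
      have hr : r = t / h := by
        rw [h0]
        field_simp
      have hw2 : w = (1 - r) • d + r • c := by
        have h00 := congrArg etail hw
        simpa [etail_ecomb] using h00
      refine ⟨d, hd, ?_⟩
      rw [hw2, hr, AffineMap.homothety_apply]
      simp only [vsub_eq_sub, vadd_eq_add]
      module
    calc volume (sec t (coneE D c h))
        ≤ volume ((AffineMap.homothety c (1 - t / h)) '' D) := measure_mono hsub
      _ = ENNReal.ofReal ((1 - t / h) ^ n) * volume D := by
        rw [Measure.addHaar_image_homothety, finrank_euclideanSpace_fin,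
          abs_of_nonneg (pow_nonneg (by linarith) n)]
  · rw [indicator_of_notMem hmem]
    have hempty : sec t (coneE D c h) = ∅ := by
      ext w
      simp only [mem_empty_iff_false, iff_false]
      rintro ⟨d, hd, r, hr0, hr1, hw⟩
      have h0 : t = r * h := by
        have h00 := congrArg (fun x : EuclideanSpace ℝ (Fin (n + 1)) => x 0) hw
        simpa [ecomb_zero] using h00
      apply hmem
      refine ⟨by rw [h0]; positivity, ?_⟩
      rcases hr1.lt_or_eq with hlt | heq
      · rw [h0]
        nlinarith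
      · exact absurd (by rw [h0, heq, one_mul]) ht
    rw [hempty, measure_empty]

theorem lintegral_cone_profile (n : ℕ) (h : ℝ) (hh : 0 < h) :
    ∫⁻ t in Ico (0:ℝ) h, ENNReal.ofReal ((1 - t / h) ^ n) = ENNReal.ofReal (h / (n + 1)) := by
  have hcont : Continuous (fun t : ℝ => (1 - t / h) ^ n) := by fun_prop
  have hint : IntegrableOn (fun t : ℝ => (1 - t / h) ^ n) (Ico (0:ℝ) h) :=
    (hcont.integrableOn_Icc).mono_set Ico_subset_Icc_self
  have hnn : 0 ≤ᵐ[volume.restrict (Ico (0:ℝ) h)] (fun t : ℝ => (1 - t / h) ^ n) := by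
    refine (ae_restrict_iff' measurableSet_Ico).mpr (Filter.Eventually.of_forall fun t ht => ?_)
    have h1 : t / h ≤ 1 := (div_le_one hh).mpr ht.2.le
    exact pow_nonneg (by linarith) n
  rw [← ofReal_integral_eq_lintegral_ofReal hint hnn]
  congr 1
  rw [integral_Ico_eq_integral_Ioc, ← intervalIntegral.integral_of_le hh.le]
  have hderiv : ∀ x ∈ uIcc (0:ℝ) h,
      HasDerivAt (fun t : ℝ => -(h / (n + 1)) * (1 - t / h) ^ (n + 1)) ((1 - x / h) ^ n) x := by
    intro x _
    have h1 : HasDerivAt (fun t : ℝ => 1 - t / h) (-(1 / h)) x := by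
      have h0 := ((hasDerivAt_id x).div_const h).const_sub 1
      simpa using h0
    have h2 : HasDerivAt (fun t : ℝ => -(h / (n + 1)) * (1 - t / h) ^ (n + 1))
        (-(h / (n + 1)) * (((n + 1 : ℕ) : ℝ) * (1 - x / h) ^ (n + 1 - 1) * -(1 / h))) x :=
      (h1.pow (n + 1)).const_mul (-(h / (n + 1)))
    refine h2.congr_deriv ?_
    have hn : (n : ℝ) + 1 ≠ 0 := by positivity
    rw [Nat.add_sub_cancel]
    push_cast
    field_simp
  rw [intervalIntegral.integral_eq_sub_of_hasDerivAt hderiv (hcont.intervalIntegrable _ _)]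
  have h0 : (1 - h / h) = 0 := by rw [div_self hh.ne', sub_self]
  rw [h0]
  simp

/-- The volume of the cone over `D` with apex at height `h` is at most `h / (n + 1)` times the
volume of `D`. -/
theorem vol_cone_le {n : ℕ} (D : Set (EuclideanSpace ℝ (Fin n))) (c : EuclideanSpace ℝ (Fin n))
    (h : ℝ) (hh : 0 < h) (hK : MeasurableSet (coneE D c h)) :
    volume (coneE D c h) ≤ ENNReal.ofReal (h / (n + 1)) * volume D := by
  have hmf : Measurable (fun t : ℝ => ENNReal.ofReal ((1 - t / h) ^ n)) := by fun_prop
  have hae : ∀ᵐ t : ℝ, t ≠ h := by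
    rw [ae_iff]
    have hset : {a : ℝ | ¬a ≠ h} = {h} := by
      ext a
      simp
    rw [hset]
    exact measure_singleton h
  rw [volume_eq_lintegral_sec hK]
  calc ∫⁻ t, volume (sec t (coneE D c h))
      ≤ ∫⁻ t, (Ico (0:ℝ) h).indicator
          (fun s => ENNReal.ofReal ((1 - s / h) ^ n) * volume D) t :=
        lintegral_mono_ae (hae.mono fun t ht => sec_coneE_le D c h hh t ht)
    _ = ∫⁻ t in Ico (0:ℝ) h, ENNReal.ofReal ((1 - t / h) ^ n) * volume D :=
        lintegral_indicator measurableSet_Ico _
    _ = (∫⁻ t in Ico (0:ℝ) h, ENNReal.ofReal ((1 - t / h) ^ n)) * volume D := by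
        rw [lintegral_mul_const _ hmf]
    _ = ENNReal.ofReal (h / (n + 1)) * volume D := by rw [lintegral_cone_profile n h hh]

end Vale.Agent.Lib.P248.H37C
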