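import Mathlib

/-!
# P248 pool (helper37): orthant decomposition and the final Cauchy-Schwarz step

Definition-independent pieces for the locally anti-blocking reduction:
* `sg`, `refl`: coordinate sign changes on `Fin n → ℝ`;
* `refl_measurePreserving`: they preserve Lebesgue measure;
* `orth_sum_le`: the volumes of the `2^n` orthant pieces of a measurable set add up to at
  most its volume;
* `ennreal_cs`: if `c ≤ a s * b s` for all `s` then `card^2 * c ≤ (∑ a) * (∑ b)`.
-/

open MeasureTheory Set

namespace Vale.Agent.Lib.P248.H37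

/-- The sign attached to a Boolean: `true ↦ 1`, `false ↦ -1`. -/
noncomputable def sg (b : Bool) : ℝ := if b then 1 else -1

lemma sg_mul_self (b : Bool) : sg b * sg b = 1 := by
  cases b <;> simp [sg]

lemma sg_abs (b : Bool) : |sg b| = 1 := by
  cases b <;> simp [sg]

lemma sg_ne_zero (b : Bool) : sg b ≠ 0 := by
  cases b <;> simp [sg]

/-- The coordinate sign change attached to `s`. -/
noncomputable def refl {n : ℕ} (s : Fin n → Bool) (z : Fin n → ℝ) : Fin n → ℝ :=
  fun i => sg (s i) * z i

lemma refl_apply {n : ℕ} (s : Fin n → Bool) (z : Fin n → ℝ) (i : Fin n) :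
    refl s z i = sg (s i) * z i := rfl

lemma refl_refl {n : ℕ} (s : Fin n → Bool) (z : Fin n → ℝ) : refl s (refl s z) = z := by
  funext i
  simp only [refl_apply]
  rw [← mul_assoc, sg_mul_self, one_mul]

lemma sg_measurePreserving (b : Bool) :
    MeasurePreserving (fun z : ℝ => sg b * z) volume volume := by
  cases b
  · have h : (fun z : ℝ => sg false * z) = fun z => -z := by
      funext z; simp [sg]
    rw [h]
    exact Measure.measurePreserving_neg _
  · have h : (fun z : ℝ => sg true * z) = id := by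
      funext z; simp [sg]
    rw [h]
    exact MeasurePreserving.id _

lemma refl_measurePreserving {n : ℕ} (s : Fin n → Bool) :
    MeasurePreserving (refl s) volume volume :=
  volume_preserving_pi (fun i => sg_measurePreserving (s i))

/-- The closed orthant with sign pattern `s`. -/
def orth {n : ℕ} (s : Fin n → Bool) : Set (Fin n → ℝ) := {x | ∀ i, 0 ≤ sg (s i) * x i}

lemma measurableSet_orth {n : ℕ} (s : Fin n → Bool) : MeasurableSet (orth s) := by
  have : orth s = ⋂ i, {x : Fin n → ℝ | 0 ≤ sg (s i) * x i} := by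
    ext x; simp [orth]
  rw [this]
  refine MeasurableSet.iInter (fun i => ?_)
  exact measurableSet_le measurable_const ((measurable_pi_apply i).const_mul _)

lemma orth_inter_null {n : ℕ} {s t : Fin n → Bool} (hst : s ≠ t) :
    volume (orth s ∩ orth t) = 0 := by
  obtain ⟨i, hi⟩ : ∃ i, s i ≠ t i := by
    by_contra hcon
    simp only [not_exists, not_not] at hcon
    exact hst (funext hcon)
  have hsub : orth s ∩ orth t ⊆ {x : Fin n → ℝ | x i = 0} := by
    intro x hx
    have h1 := hx.1 i
    have h2 := hx.2 i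
    have hneg : sg (t i) = - sg (s i) := by
      cases hs : s i <;> cases ht : t i <;> simp_all [sg]
    rw [hneg] at h2
    have h3 : sg (s i) * x i = 0 := by linarith
    rcases mul_eq_zero.1 h3 with h | h
    · exact absurd h (sg_ne_zero _)
    · exact h
  refine measure_mono_null hsub ?_
  have := Measure.pi_hyperplane (μ := fun _ : Fin n => (volume : Measure ℝ)) i (0:ℝ)
  exact this

/-- The piece of `K` in the orthant `s`, reflected into the positive orthant. -/
def piece {n : ℕ} (K : Set (Fin n → ℝ)) (s : Fin n → Bool) : Set (Fin n → ℝ) :=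
  {z | (∀ i, 0 ≤ z i) ∧ refl s z ∈ K}

lemma piece_eq_preimage {n : ℕ} (K : Set (Fin n → ℝ)) (s : Fin n → Bool) :
    piece K s = refl s ⁻¹' (K ∩ orth s) := by
  ext z
  simp only [piece, Set.mem_ofPred_eq, mem_preimage, mem_inter_iff, orth, refl_apply]
  constructor
  · rintro ⟨h1, h2⟩
    refine ⟨h2, fun i => ?_⟩
    rw [← mul_assoc, sg_mul_self, one_mul]; exact h1 i
  · rintro ⟨h2, h1⟩
    refine ⟨fun i => ?_, h2⟩
    have := h1 i
    rw [← mul_assoc, sg_mul_self, one_mul] at this; exact this

lemma volume_piece {n : ℕ} {K : Set (Fin n → ℝ)} (hK : MeasurableSet K) (s : Fin n → Bool) :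
    volume (piece K s) = volume (K ∩ orth s) := by
  rw [piece_eq_preimage]
  exact (refl_measurePreserving s).measure_preimage
    (hK.inter (measurableSet_orth s)).nullMeasurableSet

/-- The orthant pieces of a measurable set have total volume at most the volume of the set. -/
theorem orth_sum_le {n : ℕ} {K : Set (Fin n → ℝ)} (hK : MeasurableSet K) :
    ∑ s : Fin n → Bool, volume (piece K s) ≤ volume K := by
  have h1 : ∑ s : Fin n → Bool, volume (piece K s)
      = ∑ s : Fin n → Bool, volume (K ∩ orth s) :=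
    Finset.sum_congr rfl (fun s _ => volume_piece hK s)
  rw [h1]
  have h2 : volume (⋃ s ∈ (Finset.univ : Finset (Fin n → Bool)), K ∩ orth s)
      = ∑ s : Fin n → Bool, volume (K ∩ orth s) := by
    apply measure_biUnion_finset₀
    · intro s _ t _ hst
      show volume ((K ∩ orth s) ∩ (K ∩ orth t)) = 0
      refine measure_mono_null ?_ (orth_inter_null hst)
      intro x hx
      exact ⟨hx.1.2, hx.2.2⟩
    · intro s _
      exact (hK.inter (measurableSet_orth s)).nullMeasurableSet
  rw [← h2]
  apply measure_mono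
  intro x hx
  simp only [mem_iUnion] at hx
  obtain ⟨s, _, hx⟩ := hx
  exact hx.1

/-- The final step: Cauchy-Schwarz in `ENNReal`, pairwise form. -/
lemma ennreal_pair {a b a' b' c : ENNReal} (h : c ≤ a * b) (h' : c ≤ a' * b') :
    2 * c ≤ a * b' + a' * b := by
  rcases eq_or_ne c 0 with hc | hc
  · simp [hc]
  have ha : a ≠ 0 := by rintro rfl; simp at h; exact hc h
  have hb : b ≠ 0 := by rintro rfl; simp at h; exact hc h
  have ha' : a' ≠ 0 := by rintro rfl; simp at h'; exact hc h'
  have hb' : b' ≠ 0 := by rintro rfl; simp at h'; exact hc h'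
  rcases eq_or_ne a ⊤ with hat | hat
  · rw [hat, ENNReal.top_mul hb']; simp
  rcases eq_or_ne b' ⊤ with hbt | hbt
  · rw [hbt, ENNReal.mul_top ha]; simp
  rcases eq_or_ne a' ⊤ with hat' | hat'
  · rw [hat', ENNReal.top_mul hb]; simp
  rcases eq_or_ne b ⊤ with hbt' | hbt'
  · rw [hbt', ENNReal.mul_top ha']; simp
  have hct : c ≠ ⊤ := ne_top_of_le_ne_top (ENNReal.mul_ne_top hat hbt') h
  lift a to NNReal using hat
  lift b to NNReal using hbt'
  lift a' to NNReal using hat'
  lift b' to NNReal using hbt
  lift c to NNReal using hct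
  norm_cast at h h' ⊢
  have h1 : (c : ℝ) ≤ a * b := by exact_mod_cast h
  have h2 : (c : ℝ) ≤ a' * b' := by exact_mod_cast h'
  have hc0 : (0 : ℝ) ≤ c := c.2
  have hp : (0 : ℝ) ≤ a * b' := mul_nonneg a.2 b'.2
  have hq : (0 : ℝ) ≤ a' * b := mul_nonneg a'.2 b.2
  have hgoal : (2 : ℝ) * c ≤ a * b' + a' * b := by
    by_contra hlt
    have hlt := not_le.1 hlt
    have hcc : (c : ℝ) * c ≤ (a * b) * (a' * b') := mul_le_mul h1 h2 hc0 (hc0.trans h1)
    nlinarith [sq_nonneg ((a : ℝ) * b' - a' * b)]
  exact_mod_cast hgoal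

/-- The final step: if `c ≤ a s * b s` for every `s`, then `card^2 * c ≤ (∑ a) * (∑ b)`. -/
theorem ennreal_cs {ι : Type*} [Fintype ι] (a b : ι → ENNReal) (c : ENNReal)
    (h : ∀ s, c ≤ a s * b s) :
    (Fintype.card ι : ENNReal) ^ 2 * c ≤ (∑ s, a s) * (∑ s, b s) := by
  have h2 : (2 : ENNReal) * ((Fintype.card ι : ENNReal) ^ 2 * c)
      ≤ 2 * ((∑ s, a s) * (∑ s, b s)) := by
    have e1 : (2 : ENNReal) * ((∑ s, a s) * (∑ s, b s))
        = ∑ s, ∑ t, (a s * b t + a t * b s) := by
      have : ∀ s, ∑ t, (a s * b t + a t * b s) = a s * (∑ t, b t) + (∑ t, a t) * b s := by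
        intro s
        rw [Finset.sum_add_distrib, Finset.mul_sum, Finset.sum_mul]
      simp only [this]
      rw [Finset.sum_add_distrib, ← Finset.sum_mul, ← Finset.mul_sum]
      rw [two_mul]
    have e2 : (2 : ENNReal) * ((Fintype.card ι : ENNReal) ^ 2 * c)
        = ∑ _s : ι, ∑ _t : ι, 2 * c := by
      simp only [Finset.sum_const, Finset.card_univ, nsmul_eq_mul]
      ring
    rw [e1, e2]
    exact Finset.sum_le_sum (fun s _ => Finset.sum_le_sum (fun t _ => ennreal_pair (h s) (h t)))
  exact (ENNReal.mul_le_mul_iff_right (by norm_num) (by norm_num)).1 h2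

end Vale.Agent.Lib.P248.H37
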