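import Mathlib
import Vale.Agent.Lib.P248.helper37.Q2Defs
import Vale.Agent.Lib.P248.helper20.ConeConvex
import Vale.Agent.Lib.P248.helper16.SecPos
import Vale.Agent.Lib.P248.helper77.PosBasic
import Vale.Agent.Lib.P248.helper77.StarMem
import Vale.Agent.Lib.P248.helper40.PolKCount
import Vale.Agent.Lib.P248.helper52.PolKPiece
import Vale.Agent.Lib.P248.helper19.Q2Euclid

/-!
# P248 (helper37): the leaf lemmas of the anti-blocking volume product bound, collected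

Each statement below is proved in a file of another seat; this file only restates them under one
namespace, so that the assembly files can open a single namespace.
-/

open MeasureTheory Set

namespace Vale.Agent.Lib.P248.H37Q.Hub

open Vale.Agent.Lib.P248.H37 Vale.Agent.Lib.P248.H37Q

/-- J1 -/
theorem cone_ineq_convex (n : ℕ) (M : Set (Fin (n + 1) → ℝ)) (hcomp : IsCompact M)
    (hconv : Convex ℝ M) (hnn : ∀ p ∈ M, ∀ i, 0 ≤ p i) (y : Fin (n + 1) → ℝ) (hy : y ∈ M) :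
    ∑ i, ENNReal.ofReal (y i) * volume (sec M i) ≤ ((n : ENNReal) + 1) * volume M := by
  exact Vale.Agent.Lib.P248.H20Q.cone_ineq_convex n M hcomp hconv hnn y hy

/-- J2 -/
theorem sec_posZ {n : ℕ} {A : Set (Fin (n + 1) → ℝ)} (hA : Good A) (z : Fin (n + 1) → ℝ)
    (i : Fin (n + 1)) : sec (posZ A z) i = posZ (sec A i) (fun k => z (i.succAbove k)) := by
  exact Vale.Agent.Lib.P248.H16.sec_posZ hA z i

theorem adm_sec {n : ℕ} {A : Set (Fin (n + 1) → ℝ)} {z : Fin (n + 1) → ℝ} (h : Adm A z)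
    (i : Fin (n + 1)) : Adm (sec A i) (fun k => z (i.succAbove k)) := by
  exact Vale.Agent.Lib.P248.H16.adm_sec h i

/-- J3 -/
theorem isCompact_posZ {m : ℕ} {A : Set (Fin m → ℝ)} {z : Fin m → ℝ} (h : Adm A z) :
    IsCompact (posZ A z) := by
  exact Vale.Agent.Lib.P248.H77.isCompact_posZ h

theorem convex_posZ {m : ℕ} (A : Set (Fin m → ℝ)) (z : Fin m → ℝ) : Convex ℝ (posZ A z) := by
  exact Vale.Agent.Lib.P248.H77.convex_posZ A z

theorem vT_pos {m : ℕ} {A : Set (Fin m → ℝ)} {z : Fin m → ℝ} (h : Adm A z) : 0 < vT A z := by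
  exact Vale.Agent.Lib.P248.H77.vT_pos h

theorem volume_posZ_ne_top {m : ℕ} {A : Set (Fin m → ℝ)} {z : Fin m → ℝ} (h : Adm A z) :
    volume (posZ A z) ≠ ⊤ := by
  exact Vale.Agent.Lib.P248.H77.volume_posZ_ne_top h

theorem vA_pos {m : ℕ} {A : Set (Fin m → ℝ)} (h : Good A) : 0 < vA A := by
  exact Vale.Agent.Lib.P248.H77.vA_pos h

theorem isClosed_polZ {m : ℕ} (A : Set (Fin m → ℝ)) (z : Fin m → ℝ) : IsClosed (polZ A z) := by
  exact Vale.Agent.Lib.P248.H77.isClosed_polZ A z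

theorem vT_dim_zero (A : Set (Fin 0 → ℝ)) (z : Fin 0 → ℝ) : vT A z = 1 := by
  exact Vale.Agent.Lib.P248.H77.vT_dim_zero A z

theorem vA_dim_zero {A : Set (Fin 0 → ℝ)} (h : Good A) : vA A = 1 := by
  exact Vale.Agent.Lib.P248.H77.vA_dim_zero h

/-- J4 -/
theorem star_mem {m : ℕ} {A : Set (Fin m → ℝ)} {z : Fin m → ℝ} (h : Adm A z)
    (ξ : Fin m → ℝ) (hξ : ∀ i, 0 ≤ ξ i) (hT : ∀ y ∈ posZ A z, ∑ i, y i * ξ i ≤ 1) :
    (fun i => z i + ξ i) ∈ A := by
  exact Vale.Agent.Lib.P248.H77.star_mem h ξ hξ hT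

/-- J5 -/
theorem measurableSet_polK {m : ℕ} (A : Set (Fin m → ℝ)) (z : Fin m → ℝ) (k : ℕ) :
    MeasurableSet (polK A z k) := by
  exact Vale.Agent.Lib.P248.H40.measurableSet_polK A z k

theorem polK_zero {m : ℕ} (A : Set (Fin m → ℝ)) (z : Fin m → ℝ) : polK A z 0 = posZ A z := by
  exact Vale.Agent.Lib.P248.H40.polK_zero A z

theorem polK_count {m : ℕ} (A : Set (Fin m → ℝ)) (z : Fin m → ℝ) (k : ℕ) :
    (k : ENNReal) * volume (polK A z k) = ∑ i, volume (polK A z k ∩ {y | y i < 0}) := by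
  exact Vale.Agent.Lib.P248.H40.polK_count A z k

theorem polK_sum_le {m : ℕ} (A : Set (Fin m → ℝ)) (z : Fin m → ℝ) :
    ∑ k ∈ Finset.range (m + 1), volume (polK A z k) ≤ volume (polZ A z) := by
  exact Vale.Agent.Lib.P248.H40.polK_sum_le A z

/-- J6 -/
theorem polK_piece {n : ℕ} {A : Set (Fin (n + 1) → ℝ)} {z : Fin (n + 1) → ℝ} (h : Adm A z)
    (i : Fin (n + 1)) (k : ℕ) :
    ENNReal.ofReal (1 / (((n : ℝ) + 1) * z i)) *
        volume (polK (sec A i) (fun j => z (i.succAbove j)) k) ≤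
      volume (polK A z (k + 1) ∩ {y | y i < 0}) := by
  exact Vale.Agent.Lib.P248.H52.polK_piece h i k

/-- J8 -/
theorem q2_euclid {n : ℕ}
    (hpi : ∀ (A : Set (Fin n → ℝ)) (z : Fin n → ℝ), Adm A z →
      ENNReal.ofReal (((n : ℝ) + 1) ^ (n + 1) / (n.factorial : ℝ) ^ 2) ≤
        volume A * volume (polZ A z))
    (A : Set (EuclideanSpace ℝ (Fin n))) (hconv : Convex ℝ A) (hcomp : IsCompact A)
    (hnn : ∀ x ∈ A, ∀ i, 0 ≤ x i)
    (hdown : ∀ x ∈ A, ∀ y : EuclideanSpace ℝ (Fin n), (∀ i, 0 ≤ y i ∧ y i ≤ x i) → y ∈ A)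
    (z : EuclideanSpace ℝ (Fin n)) (hz : z ∈ interior A) :
    ENNReal.ofReal (((n : ℝ) + 1) ^ (n + 1) / (n.factorial : ℝ) ^ 2) ≤
      volume A * volume {y : EuclideanSpace ℝ (Fin n) | ∀ x ∈ A, inner ℝ (x - z) y ≤ 1} := by
  exact Vale.Agent.Lib.P248.H19Q.q2_euclid hpi A hconv hcomp hnn hdown z hz

end Vale.Agent.Lib.P248.H37Q.Hub
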