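import Mathlib
import Vale.Agent.Lib.P248.helper37.Q2Defs
import Vale.Agent.Lib.P248.helper37.Q2Hub

/-!
# P248 (helper37): lower bound for the parts of the polar by the depth sums of the facet tree
-/

open MeasureTheory Set

namespace Vale.Agent.Lib.P248.H37L

open Vale.Agent.Lib.P248.H37 Vale.Agent.Lib.P248.H37Q Vale.Agent.Lib.P248.H37Q.Hub

theorem ofReal_sum_le'' {ι : Type*} (s : Finset ι) (a : ι → ℝ) :
    ENNReal.ofReal (∑ k ∈ s, a k) ≤ ∑ k ∈ s, ENNReal.ofReal (a k) := by
  classical
  induction s using Finset.induction_on with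
  | empty => simp
  | insert i s hi ih =>
    rw [Finset.sum_insert hi, Finset.sum_insert hi]
    exact le_trans ENNReal.ofReal_add_le (add_le_add le_rfl ih)

theorem volume_posZ_eq {m : ℕ} {A : Set (Fin m → ℝ)} {z : Fin m → ℝ} (h : Adm A z) :
    volume (posZ A z) = ENNReal.ofReal (vT A z) := by
  unfold vT
  rw [ENNReal.ofReal_toReal (volume_posZ_ne_top h)]

theorem polK_lower : ∀ (m : ℕ) (A : Set (Fin m → ℝ)) (z : Fin m → ℝ), Adm A z → ∀ k : ℕ,
    ENNReal.ofReal ((tree m A z).Om k / ((k.factorial : ℝ) * (m.factorial : ℝ) * ∏ i, z i)) ≤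
      volume (polK A z k) := by
  intro m
  induction m with
  | zero =>
    intro A z h k
    cases k with
    | zero =>
      rw [polK_zero, volume_posZ_eq h, vT_dim_zero]
      refine ENNReal.ofReal_le_ofReal ?_
      show (1 : ℝ) / (((Nat.factorial 0 : ℕ) : ℝ) * ((Nat.factorial 0 : ℕ) : ℝ) * ∏ i, z i) ≤ 1
      simp
    | succ k =>
      have e : (tree 0 A z).Om (k + 1) = 0 := rfl
      rw [e, zero_div, ENNReal.ofReal_zero]
      exact zero_le
  | succ n ih =>
    intro A z h k
    have hζ : 0 < ∏ i, z i := Finset.prod_pos (fun i _ => h.pos i)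
    have hfac : 0 < ((n + 1).factorial : ℝ) := by exact_mod_cast Nat.factorial_pos (n + 1)
    have hfn : 0 < (n.factorial : ℝ) := by exact_mod_cast Nat.factorial_pos n
    have hfs : ((n + 1).factorial : ℝ) = ((n : ℝ) + 1) * (n.factorial : ℝ) := by
      rw [Nat.factorial_succ]
      push_cast
      ring
    cases k with
    | zero =>
      rw [polK_zero, volume_posZ_eq h]
      refine ENNReal.ofReal_le_ofReal ?_
      show (((n + 1).factorial : ℝ) * vT A z * ∏ i, z i) /
          (((Nat.factorial 0 : ℕ) : ℝ) * ((n + 1).factorial : ℝ) * ∏ i, z i) ≤ vT A z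
      have e : (((n + 1).factorial : ℝ) * vT A z * ∏ i, z i) /
          (((Nat.factorial 0 : ℕ) : ℝ) * ((n + 1).factorial : ℝ) * ∏ i, z i) = vT A z := by
        simp only [Nat.factorial_zero, Nat.cast_one, one_mul]
        field_simp
      rw [e]
    | succ k =>
      have hfk : 0 < (k.factorial : ℝ) := by exact_mod_cast Nat.factorial_pos k
      have hfks : ((k + 1).factorial : ℝ) = ((k : ℝ) + 1) * (k.factorial : ℝ) := by
        rw [Nat.factorial_succ]
        push_cast
        ring
      have hk1 : (0 : ℝ) < (k : ℝ) + 1 := by positivity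
      have hn1 : (0 : ℝ) < (n : ℝ) + 1 := by positivity
      have hOm : (tree (n + 1) A z).Om (k + 1)
          = ∑ i, (tree n (sec A i) (fun j => z (i.succAbove j))).Om k := rfl
      -- the chain of inequalities
      have hchain : ENNReal.ofReal (((k : ℝ) + 1) * ((tree (n + 1) A z).Om (k + 1) /
            (((k + 1).factorial : ℝ) * ((n + 1).factorial : ℝ) * ∏ i, z i)))
          ≤ ((k + 1 : ℕ) : ENNReal) * volume (polK A z (k + 1)) := by
        rw [polK_count A z (k + 1)]
        have hstep : ∀ i : Fin (n + 1),
            ENNReal.ofReal ((tree n (sec A i) (fun j => z (i.succAbove j))).Om k /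
              ((k.factorial : ℝ) * (n.factorial : ℝ) * (((n : ℝ) + 1) * ∏ l, z l)))
            ≤ volume (polK A z (k + 1) ∩ {y | y i < 0}) := by
          intro i
          have hzi : 0 < z i := h.pos i
          have hpi : 0 < ∏ j : Fin n, z (i.succAbove j) := Finset.prod_pos (fun j _ => h.pos _)
          have hp : ∏ l, z l = z i * ∏ j : Fin n, z (i.succAbove j) := Fin.prod_univ_succAbove z i
          have hih := ih _ _ (adm_sec h i) k
          refine le_trans ?_ (polK_piece h i k)
          have e0 : ENNReal.ofReal ((tree n (sec A i) (fun j => z (i.succAbove j))).Om k /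
              ((k.factorial : ℝ) * (n.factorial : ℝ) * (((n : ℝ) + 1) * ∏ l, z l)))
              = ENNReal.ofReal (1 / (((n : ℝ) + 1) * z i)) *
                ENNReal.ofReal ((tree n (sec A i) (fun j => z (i.succAbove j))).Om k /
                  ((k.factorial : ℝ) * (n.factorial : ℝ) * ∏ j : Fin n, z (i.succAbove j))) := by
            rw [← ENNReal.ofReal_mul (by positivity)]
            congr 1
            rw [hp]
            field_simp
          rw [e0]
          gcongr
        refine le_trans ?_ (Finset.sum_le_sum fun i _ => hstep i)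
        refine le_trans (ENNReal.ofReal_le_ofReal (le_of_eq ?_)) (ofReal_sum_le'' _ _)
        rw [hOm, Finset.sum_div, Finset.mul_sum]
        refine Finset.sum_congr rfl fun i _ => ?_
        rw [hfks, hfs]
        field_simp
      rw [ENNReal.ofReal_mul hk1.le] at hchain
      have e3 : ENNReal.ofReal ((k : ℝ) + 1) = ((k + 1 : ℕ) : ENNReal) := by
        rw [← ENNReal.ofReal_natCast]
        push_cast
        rfl
      rw [e3] at hchain
      have hne : ((k + 1 : ℕ) : ENNReal) ≠ 0 := by
        exact_mod_cast Nat.succ_ne_zero k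
      exact (ENNReal.mul_le_mul_iff_right hne (ENNReal.natCast_ne_top _)).mp hchain

end Vale.Agent.Lib.P248.H37L
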