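import Mathlib
import Vale.Agent.Lib.P248.helper37.Q2Defs

/-!
# P248 (helper37): the tree inequality

For a tree `t : LT m` with `t.Ok`:
`(m + 1) ^ (m + 1) ≤ t.b * ∑ k ≤ m, t.Om k / k!`.
-/

open MeasureTheory Set

namespace Vale.Agent.Lib.P248.H37A

open Vale.Agent.Lib.P248.H37 Vale.Agent.Lib.P248.H37Q

/-- Two-term inequality of arithmetic and geometric means with natural weights. -/
theorem amgm (d q : ℕ) (ρ : ℝ) (hρ : 0 ≤ ρ) :
    ((d : ℝ) + q) * ρ ^ q ≤ d + q * ρ ^ (d + q) := by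
  induction q with
  | zero => simp
  | succ q ih =>
    have hb : 1 + (d : ℝ) * (ρ - 1) ≤ ρ ^ d := by
      have h := one_add_mul_le_pow (a := ρ - 1) (by linarith) d
      simpa using h
    have hs : 0 ≤ (ρ ^ (q + 1) - 1) * (ρ ^ d - 1) := by
      rcases le_total ρ 1 with h | h
      · have h1 : ρ ^ (q + 1) ≤ 1 := pow_le_one₀ hρ h
        have h2 : ρ ^ d ≤ 1 := pow_le_one₀ hρ h
        exact mul_nonneg_of_nonpos_of_nonpos (by linarith) (by linarith)
      · have h1 : 1 ≤ ρ ^ (q + 1) := one_le_pow₀ h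
        have h2 : 1 ≤ ρ ^ d := one_le_pow₀ h
        exact mul_nonneg (by linarith) (by linarith)
    have h1 := mul_le_mul_of_nonneg_left ih hρ
    have e1 : ρ ^ (d + (q + 1)) = ρ ^ (q + 1) * ρ ^ d := by ring
    have e2 : ρ * ρ ^ (d + q) = ρ ^ (q + 1) * ρ ^ d := by ring
    have e3 : ρ * ρ ^ q = ρ ^ (q + 1) := by ring
    have h1' : ((d : ℝ) + q) * ρ ^ (q + 1) ≤ d * ρ + q * (ρ ^ (q + 1) * ρ ^ d) := by
      have : ρ * (((d : ℝ) + q) * ρ ^ q) = ((d : ℝ) + q) * ρ ^ (q + 1) := by rw [← e3]; ring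
      rw [← this]
      have : ρ * ((d : ℝ) + q * ρ ^ (d + q)) = d * ρ + q * (ρ ^ (q + 1) * ρ ^ d) := by
        rw [← e2]; ring
      rw [← this]
      exact h1
    rw [e1]
    push_cast
    nlinarith

/-- Young's inequality with natural exponents. -/
theorem young (p : ℕ) (a b : ℝ) (ha : 0 ≤ a) (hb : 0 ≤ b) :
    ((p : ℝ) + 1) * a * b ^ p ≤ a ^ (p + 1) + p * b ^ (p + 1) := by
  induction p with
  | zero => simp
  | succ p ih =>
    have h1 : 0 ≤ (a - b) * (a ^ (p + 1) - b ^ (p + 1)) := by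
      rcases le_total a b with h | h
      · have := pow_le_pow_left₀ ha h (p + 1)
        exact mul_nonneg_of_nonpos_of_nonpos (by linarith) (by linarith)
      · have := pow_le_pow_left₀ hb h (p + 1)
        exact mul_nonneg (by linarith) (by linarith)
    have h2 := mul_le_mul_of_nonneg_left ih hb
    have e1 : a ^ (p + 1 + 1) = a * a ^ (p + 1) := by ring
    have e2 : b ^ (p + 1 + 1) = b * b ^ (p + 1) := by ring
    have e3 : b * (((p : ℝ) + 1) * a * b ^ p) = ((p : ℝ) + 1) * a * b ^ (p + 1) := by ring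
    rw [e3] at h2
    rw [e1, e2]
    push_cast
    nlinarith

/-- The root of order `N + 1` of `choose N d * |u|`, `u` the first label of the root of a tree
of height `d`. -/
noncomputable def X (N : ℕ) {d : ℕ} (t : LT d) : ℝ :=
  ((N.choose d : ℝ) * |t.u|) ^ (((N + 1 : ℕ) : ℝ)⁻¹)

theorem X_nonneg (N : ℕ) {d : ℕ} (t : LT d) : 0 ≤ X N t :=
  Real.rpow_nonneg (mul_nonneg (Nat.cast_nonneg _) (abs_nonneg _)) _

theorem X_pow (N : ℕ) {d : ℕ} (t : LT d) : X N t ^ (N + 1) = (N.choose d : ℝ) * |t.u| :=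
  Real.rpow_inv_natCast_pow (mul_nonneg (Nat.cast_nonneg _) (abs_nonneg _)) (Nat.succ_ne_zero N)

theorem X_leaf (N : ℕ) : X N LT.leaf = 1 := by
  simp [X, LT.u]

/-- `Phi N p t` is the sum over the nodes `s` of `t` of `(height s)! * X N s ^ p`. -/
noncomputable def Phi (N p : ℕ) : {d : ℕ} → LT d → ℝ
  | _, LT.leaf => 1
  | _, @LT.node d u b ch =>
    ((d + 1).factorial : ℝ) * X N (LT.node u b ch) ^ p + ∑ i, Phi N p (ch i)

theorem Phi_pos (N p : ℕ) {d : ℕ} (t : LT d) : 0 < Phi N p t := by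
  induction t with
  | leaf => simp [Phi]
  | @node d u b ch ih =>
    simp only [Phi]
    have h1 : 0 ≤ ((d + 1).factorial : ℝ) * X N (LT.node u b ch) ^ p :=
      mul_nonneg (Nat.cast_nonneg _) (pow_nonneg (X_nonneg _ _) _)
    have h2 : 0 < ∑ i, Phi N p (ch i) :=
      Finset.sum_pos (fun i _ => ih i) Finset.univ_nonempty
    linarith

theorem Phi_zero (N : ℕ) {d : ℕ} (t : LT d) : Phi N 0 t = ((d + 1).factorial : ℝ) := by
  induction t with
  | leaf => simp [Phi]
  | @node d u b ch ih =>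
    simp only [Phi, pow_zero, mul_one, ih, Finset.sum_const, Finset.card_univ, Fintype.card_fin,
      nsmul_eq_mul]
    rw [Nat.factorial_succ (d + 1)]
    push_cast
    ring

theorem Phi_young (N p : ℕ) (x0 : ℝ) (hx : 0 ≤ x0) {d : ℕ} (t : LT d) :
    ((p : ℝ) + 1) * x0 * Phi N p t ≤ x0 ^ (p + 1) * Phi N 0 t + p * Phi N (p + 1) t := by
  induction t with
  | leaf =>
    simp only [Phi]
    have h := young p x0 1 hx zero_le_one
    simpa using h
  | @node d u b ch ih =>
    simp only [Phi, pow_zero, mul_one]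
    have hy := young p x0 (X N (LT.node u b ch)) hx (X_nonneg _ _)
    have hs := Finset.sum_le_sum (fun i (_ : i ∈ Finset.univ) => ih i)
    rw [Finset.sum_add_distrib, ← Finset.mul_sum, ← Finset.mul_sum, ← Finset.mul_sum] at hs
    have hf : (0 : ℝ) ≤ ((d + 1).factorial : ℝ) := Nat.cast_nonneg _
    have hy' := mul_le_mul_of_nonneg_left hy hf
    nlinarith

theorem Phi_top (N : ℕ) {d : ℕ} (t : LT d) (ht : t.Ok) :
    Phi N (N + 1) t = ∑ j ∈ Finset.range (d + 1), (N.descFactorial (d - j) : ℝ) * t.Om j := by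
  induction t with
  | leaf => simp [Phi, LT.Om, LT.u]
  | @node d u b ch ih =>
    obtain ⟨hu, hb, hch, hsum⟩ := ht
    rw [Finset.sum_range_succ']
    simp only [Phi, X_pow, LT.Om, LT.u, Nat.succ_sub_succ, Nat.sub_zero, Finset.mul_sum]
    rw [Finset.sum_comm, abs_of_pos hu, Nat.descFactorial_eq_factorial_mul_choose]
    push_cast
    rw [Finset.sum_congr rfl (fun i _ => ih i (hch i))]
    ring

theorem u_pos {d : ℕ} (t : LT d) (ht : t.Ok) : 0 < t.u := by
  cases t with
  | leaf => simp [LT.u]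
  | node u b ch => exact ht.1

theorem b_pos {d : ℕ} (t : LT d) (ht : t.Ok) : 0 < t.b := by
  cases t with
  | leaf => simp [LT.b]
  | node u b ch => exact ht.2.1

/-- The step inequality at a node of height `d + 1` with a child of height `d`. -/
theorem step (N d e : ℕ) (hN : d + 1 + e = N) (x xc u uc : ℝ) (hx : 0 < x) (hxc : 0 ≤ xc)
    (hu : 0 < u) (hX : x ^ (N + 1) = (N.choose (d + 1) : ℝ) * u)
    (hXc : xc ^ (N + 1) = (N.choose d : ℝ) * uc) :
    ((N : ℝ) + 1) * (xc / x) ^ (e + 1) ≤ ((d : ℝ) + 1) * (1 + uc / u) := by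
  have hρ : 0 ≤ xc / x := div_nonneg hxc hx.le
  have h := amgm (d + 1) (e + 1) (xc / x) hρ
  have hNe : d + 1 + (e + 1) = N + 1 := by omega
  rw [hNe] at h
  have hc : (N.choose (d + 1) : ℝ) * ((d : ℝ) + 1) = (N.choose d : ℝ) * ((e : ℝ) + 1) := by
    have h1 := Nat.choose_succ_right_eq N d
    have hNd : N - d = e + 1 := by omega
    rw [hNd] at h1
    exact_mod_cast h1
  have hcpos : 0 < (N.choose (d + 1) : ℝ) := by
    exact_mod_cast Nat.choose_pos (by omega)
  have hpow : ((e : ℝ) + 1) * (xc / x) ^ (N + 1) = ((d : ℝ) + 1) * (uc / u) := by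
    rw [div_pow, hX, hXc]
    field_simp
    linear_combination (-uc) * hc
  push_cast at h
  have hNr : (N : ℝ) + 1 = (d : ℝ) + 1 + (e + 1) := by
    have h2 : (N : ℝ) = (d : ℝ) + 1 + e := by exact_mod_cast hN.symm
    linarith
  rw [hNr]
  linarith [h, hpow]

/-- The main induction: a lower bound for `b * X ^ e * Phi (d + 1)` at a subtree of height
`d = N - e`. -/
theorem key {d : ℕ} (t : LT d) (ht : t.Ok) : ∀ (e N : ℕ), d + e = N →
    ((d + 1).factorial : ℝ) * ((N : ℝ) + 1) ^ d ≤ t.b * X N t ^ e * Phi N (d + 1) t := by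
  induction t with
  | leaf =>
    intro e N _
    simp [Phi, LT.b, X_leaf]
  | @node d u b ch ih =>
    intro e N hN
    obtain ⟨hu, hb, hch, hsum⟩ := ht
    have hXp : X N (LT.node u b ch) ^ (N + 1) = (N.choose (d + 1) : ℝ) * u := by
      rw [X_pow]
      simp only [LT.u]
      rw [abs_of_pos hu]
    have hcpos : 0 < (N.choose (d + 1) : ℝ) := by
      exact_mod_cast Nat.choose_pos (by omega)
    have hx0 : 0 ≤ X N (LT.node u b ch) := X_nonneg _ _
    have hx : 0 < X N (LT.node u b ch) := by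
      rcases hx0.eq_or_lt with h | h
      · exfalso
        rw [← h, zero_pow (Nat.succ_ne_zero N)] at hXp
        have h3 : 0 < (N.choose (d + 1) : ℝ) * u := mul_pos hcpos hu
        linarith
      · exact h
    simp only [LT.b, Phi]
    generalize X N (LT.node u b ch) = x at hXp hx0 hx ⊢
    have hstep : ∀ i, ((N : ℝ) + 1) * (X N (ch i) / x) ^ (e + 1) ≤
        ((d : ℝ) + 1) * (1 + (ch i).u / u) := by
      intro i
      refine step N d e hN x (X N (ch i)) u (ch i).u hx (X_nonneg _ _) hu hXp ?_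
      rw [X_pow, abs_of_pos (u_pos _ (hch i))]
    have hih : ∀ i, ((d + 1).factorial : ℝ) * ((N : ℝ) + 1) ^ d ≤
        (ch i).b * X N (ch i) ^ (e + 1) * Phi N (d + 1) (ch i) :=
      fun i => ih i (hch i) (e + 1) N (by omega)
    have hKpos : 0 < ((d + 1).factorial : ℝ) * ((N : ℝ) + 1) ^ d := by positivity
    generalize hKdef : ((d + 1).factorial : ℝ) * ((N : ℝ) + 1) ^ d = K at hih hKpos
    have hSpos : 0 < ∑ i, Phi N (d + 1) (ch i) :=
      Finset.sum_pos (fun i _ => Phi_pos _ _ _) Finset.univ_nonempty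
    have hxe : 0 < x ^ (e + 1) := pow_pos hx _
    have hd1 : 0 < (d : ℝ) + 1 := by positivity
    have h1 : ((N : ℝ) + 1) * ∑ i, (ch i).b * X N (ch i) ^ (e + 1) ≤
        ((d : ℝ) + 1) * b * x ^ (e + 1) := by
      have hterm : ∀ i, ((N : ℝ) + 1) * ((ch i).b * X N (ch i) ^ (e + 1)) ≤
          ((d : ℝ) + 1) * x ^ (e + 1) * ((1 + (ch i).u / u) * (ch i).b) := by
        intro i
        have hbi := b_pos _ (hch i)
        have h := hstep i
        rw [div_pow, ← mul_div_assoc, div_le_iff₀ hxe] at h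
        have h' := mul_le_mul_of_nonneg_left h hbi.le
        calc ((N : ℝ) + 1) * ((ch i).b * X N (ch i) ^ (e + 1))
            = (ch i).b * (((N : ℝ) + 1) * X N (ch i) ^ (e + 1)) := by ring
          _ ≤ (ch i).b * (((d : ℝ) + 1) * (1 + (ch i).u / u) * x ^ (e + 1)) := h'
          _ = ((d : ℝ) + 1) * x ^ (e + 1) * ((1 + (ch i).u / u) * (ch i).b) := by ring
      calc ((N : ℝ) + 1) * ∑ i, (ch i).b * X N (ch i) ^ (e + 1)
          = ∑ i, ((N : ℝ) + 1) * ((ch i).b * X N (ch i) ^ (e + 1)) := Finset.mul_sum _ _ _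
        _ ≤ ∑ i, ((d : ℝ) + 1) * x ^ (e + 1) * ((1 + (ch i).u / u) * (ch i).b) :=
            Finset.sum_le_sum (fun i _ => hterm i)
        _ = ((d : ℝ) + 1) * x ^ (e + 1) * ∑ i, (1 + (ch i).u / u) * (ch i).b :=
            (Finset.mul_sum _ _ _).symm
        _ ≤ ((d : ℝ) + 1) * x ^ (e + 1) * b :=
            mul_le_mul_of_nonneg_left hsum (mul_nonneg hd1.le hxe.le)
        _ = ((d : ℝ) + 1) * b * x ^ (e + 1) := by ring
    have h2 : K * ((d : ℝ) + 1) ^ 2 ≤
        (∑ i, (ch i).b * X N (ch i) ^ (e + 1)) * ∑ i, Phi N (d + 1) (ch i) := by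
      have hcs := Finset.sq_sum_div_le_sum_sq_div (Finset.univ : Finset (Fin (d + 1)))
        (fun _ => (1 : ℝ)) (g := fun i => Phi N (d + 1) (ch i)) (fun i _ => Phi_pos _ _ _)
      simp only [Finset.sum_const, Finset.card_univ, Fintype.card_fin, nsmul_eq_mul, mul_one,
        one_pow] at hcs
      push_cast at hcs
      have hle : ∑ i, K * (1 / Phi N (d + 1) (ch i)) ≤
          ∑ i, (ch i).b * X N (ch i) ^ (e + 1) := by
        refine Finset.sum_le_sum (fun i _ => ?_)
        rw [mul_one_div, div_le_iff₀ (Phi_pos _ _ _)]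
        exact hih i
      rw [← Finset.mul_sum] at hle
      have h3 : K * (((d : ℝ) + 1) ^ 2 / ∑ i, Phi N (d + 1) (ch i)) ≤
          ∑ i, (ch i).b * X N (ch i) ^ (e + 1) :=
        le_trans (mul_le_mul_of_nonneg_left hcs hKpos.le) hle
      rw [← mul_div_assoc, div_le_iff₀ hSpos] at h3
      exact h3
    have h3 : ((d : ℝ) + 2) * x * ∑ i, Phi N (d + 1) (ch i) ≤
        ((d : ℝ) + 1) * (((d + 1).factorial : ℝ) * x ^ (d + 1 + 1) +
          ∑ i, Phi N (d + 1 + 1) (ch i)) := by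
      have hs := Finset.sum_le_sum
        (fun i (_ : i ∈ Finset.univ) => Phi_young N (d + 1) x hx0 (ch i))
      simp only [Phi_zero] at hs
      rw [← Finset.mul_sum, Finset.sum_add_distrib, ← Finset.mul_sum] at hs
      simp only [Finset.sum_const, Finset.card_univ, Fintype.card_fin, nsmul_eq_mul] at hs
      rw [← Finset.mul_sum] at hs
      push_cast at hs
      linarith
    generalize (∑ i, Phi N (d + 1) (ch i)) = S at h2 h3 hSpos
    generalize (∑ i, (ch i).b * X N (ch i) ^ (e + 1)) = T at h1 h2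
    generalize (((d + 1).factorial : ℝ) * x ^ (d + 1 + 1) + ∑ i, Phi N (d + 1 + 1) (ch i)) = F
      at h3 ⊢
    have hN1 : 0 < (N : ℝ) + 1 := by positivity
    have hA : ((N : ℝ) + 1) * K * ((d : ℝ) + 1) ^ 2 ≤ ((d : ℝ) + 1) * b * x ^ (e + 1) * S := by
      calc ((N : ℝ) + 1) * K * ((d : ℝ) + 1) ^ 2 = ((N : ℝ) + 1) * (K * ((d : ℝ) + 1) ^ 2) := by
            ring
        _ ≤ ((N : ℝ) + 1) * (T * S) := mul_le_mul_of_nonneg_left h2 hN1.le
        _ = (((N : ℝ) + 1) * T) * S := by ring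
        _ ≤ (((d : ℝ) + 1) * b * x ^ (e + 1)) * S := mul_le_mul_of_nonneg_right h1 hSpos.le
    have hB : ((d : ℝ) + 2) * (b * x ^ (e + 1) * S) ≤ ((d : ℝ) + 1) * (b * x ^ e * F) := by
      have h4 := mul_le_mul_of_nonneg_left h3 (mul_nonneg hb.le (pow_nonneg hx0 e))
      calc ((d : ℝ) + 2) * (b * x ^ (e + 1) * S) = b * x ^ e * (((d : ℝ) + 2) * x * S) := by ring
        _ ≤ b * x ^ e * (((d : ℝ) + 1) * F) := h4
        _ = ((d : ℝ) + 1) * (b * x ^ e * F) := by ring
    have hfin : ((d : ℝ) + 1) ^ 2 * (((d + 1 + 1).factorial : ℝ) * ((N : ℝ) + 1) ^ (d + 1)) ≤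
        ((d : ℝ) + 1) ^ 2 * (b * x ^ e * F) := by
      have e1 : ((d + 1 + 1).factorial : ℝ) * ((N : ℝ) + 1) ^ (d + 1) =
          ((d : ℝ) + 2) * (((N : ℝ) + 1) * K) := by
        rw [← hKdef, Nat.factorial_succ (d + 1)]
        push_cast
        ring
      rw [e1]
      have hd2 : 0 < (d : ℝ) + 2 := by positivity
      have h5 := mul_le_mul_of_nonneg_left hA hd2.le
      have h6 := mul_le_mul_of_nonneg_left hB hd1.le
      nlinarith
    exact le_of_mul_le_mul_left hfin (by positivity)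

/-- The tree inequality. -/
theorem tree_alg {m : ℕ} (t : LT m) (ht : t.Ok) :
    ((m : ℝ) + 1) ^ (m + 1) ≤
      t.b * ∑ k ∈ Finset.range (m + 1), t.Om k / (k.factorial : ℝ) := by
  have hk := key t ht 0 m (by omega)
  rw [pow_zero, mul_one, Phi_top m t ht] at hk
  have hfac : 0 < (m.factorial : ℝ) := by exact_mod_cast Nat.factorial_pos m
  have hsum : ∑ j ∈ Finset.range (m + 1), (m.descFactorial (m - j) : ℝ) * t.Om j
      = (m.factorial : ℝ) * ∑ k ∈ Finset.range (m + 1), t.Om k / (k.factorial : ℝ) := by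
    rw [Finset.mul_sum]
    refine Finset.sum_congr rfl (fun j hj => ?_)
    have hj' : j ≤ m := Nat.lt_succ_iff.mp (Finset.mem_range.mp hj)
    have h := Nat.factorial_mul_descFactorial (Nat.sub_le m j)
    rw [Nat.sub_sub_self hj'] at h
    have hjf : 0 < (j.factorial : ℝ) := by exact_mod_cast Nat.factorial_pos j
    have h' : (j.factorial : ℝ) * (m.descFactorial (m - j) : ℝ) = (m.factorial : ℝ) := by
      exact_mod_cast h
    rw [← h']
    field_simp
  rw [hsum, Nat.factorial_succ] at hk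
  push_cast at hk
  have h7 : (m.factorial : ℝ) * (((m : ℝ) + 1) ^ (m + 1)) ≤ (m.factorial : ℝ) *
      (t.b * ∑ k ∈ Finset.range (m + 1), t.Om k / (k.factorial : ℝ)) := by
    rw [pow_succ]
    linarith
  exact le_of_mul_le_mul_left h7 hfac

end Vale.Agent.Lib.P248.H37A
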