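import Mathlib
import Vale.Agent.Lib.P248.helper37.Q2Defs
import Vale.Agent.Lib.P248.helper37.Final
import Vale.Agent.Lib.P248.helper37.Q2Hub

/-!
# P248 (helper37): the facet tree of an admissible pair satisfies the local inequalities
-/

open MeasureTheory Set

namespace Vale.Agent.Lib.P248.H37T

open Vale.Agent.Lib.P248.H37 Vale.Agent.Lib.P248.H37Q Vale.Agent.Lib.P248.H37Q.Hub

theorem tree_u_eq : ∀ (m : ℕ) (A : Set (Fin m → ℝ)) (z : Fin m → ℝ),
    (tree m A z).u = (m.factorial : ℝ) * vT A z * ∏ i, z i := by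
  intro m
  cases m with
  | zero =>
    intro A z
    have h1 : vT A z = 1 := vT_dim_zero A z
    show (1 : ℝ) = ((Nat.factorial 0 : ℕ) : ℝ) * vT A z * ∏ i, z i
    rw [h1]
    simp
  | succ n =>
    intro A z
    rfl

theorem tree_b_eq' : ∀ (m : ℕ) (A : Set (Fin m → ℝ)) (z : Fin m → ℝ), Adm A z →
    (tree m A z).b = (m.factorial : ℝ) * vA A / ∏ i, z i := by
  intro m
  cases m with
  | zero =>
    intro A z h
    have h1 : vA A = 1 := vA_dim_zero h.good
    show (1 : ℝ) = ((Nat.factorial 0 : ℕ) : ℝ) * vA A / ∏ i, z i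
    rw [h1]
    simp
  | succ n =>
    intro A z _
    rfl

/-- The real form of the cone inequality on the positive part of the polar. -/
theorem posZ_cone_real {n : ℕ} {A : Set (Fin (n + 1) → ℝ)} {z : Fin (n + 1) → ℝ} (h : Adm A z)
    (y : Fin (n + 1) → ℝ) (hy : y ∈ posZ A z) :
    ∑ i, y i * vT (sec A i) (fun k => z (i.succAbove k)) ≤ ((n : ℝ) + 1) * vT A z := by
  have hc := cone_ineq_convex n (posZ A z) (isCompact_posZ h) (convex_posZ A z)
    (fun p hp i => hp.1 i) y hy
  have e1 : ∀ i : Fin (n + 1), volume (sec (posZ A z) i)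
      = ENNReal.ofReal (vT (sec A i) (fun k => z (i.succAbove k))) := by
    intro i
    rw [sec_posZ h.good z i]
    unfold vT
    rw [ENNReal.ofReal_toReal (volume_posZ_ne_top (adm_sec h i))]
  have e2 : volume (posZ A z) = ENNReal.ofReal (vT A z) := by
    unfold vT
    rw [ENNReal.ofReal_toReal (volume_posZ_ne_top h)]
  simp only [e1] at hc
  rw [e2] at hc
  exact cone_to_real n (fun i => hy.1 i) (fun i => ENNReal.toReal_nonneg) ENNReal.toReal_nonneg hc

/-- The real form of the cone inequality for `A` at the point `z + ξ`. -/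
theorem A_cone_real {n : ℕ} {A : Set (Fin (n + 1) → ℝ)} {z : Fin (n + 1) → ℝ} (h : Adm A z) :
    ∑ i, (z i + vT (sec A i) (fun k => z (i.succAbove k)) / (((n : ℝ) + 1) * vT A z)) *
        vA (sec A i) ≤ ((n : ℝ) + 1) * vA A := by
  have hV : 0 < vT A z := vT_pos h
  have hn : 0 < (n : ℝ) + 1 := by positivity
  have hξ : ∀ i : Fin (n + 1),
      0 ≤ vT (sec A i) (fun k => z (i.succAbove k)) / (((n : ℝ) + 1) * vT A z) :=
    fun i => div_nonneg ENNReal.toReal_nonneg (by positivity)
  have hT : ∀ y ∈ posZ A z,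
      ∑ i, y i * (vT (sec A i) (fun k => z (i.succAbove k)) / (((n : ℝ) + 1) * vT A z)) ≤ 1 := by
    intro y hy
    have h1 := posZ_cone_real h y hy
    have e : ∑ i, y i * (vT (sec A i) (fun k => z (i.succAbove k)) / (((n : ℝ) + 1) * vT A z))
        = (∑ i, y i * vT (sec A i) (fun k => z (i.succAbove k))) / (((n : ℝ) + 1) * vT A z) := by
      rw [Finset.sum_div]
      exact Finset.sum_congr rfl fun i _ => by ring
    rw [e, div_le_one (by positivity)]
    exact h1
  have hmem := star_mem h _ hξ hT
  have hg := h.good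
  have hc := cone_all n A hg.closed hg.convex hg.nonneg hg.down _ hmem
  have e1 : ∀ i : Fin (n + 1),
      volume {w : Fin n → ℝ | (Fin.insertNth i (0 : ℝ) w : Fin (n + 1) → ℝ) ∈ A}
      = ENNReal.ofReal (vA (sec A i)) := by
    intro i
    unfold vA
    rw [ENNReal.ofReal_toReal (good_vol_lt_top (good_sec hg i)).ne]
    rfl
  have e2 : volume A = ENNReal.ofReal (vA A) := by
    unfold vA
    rw [ENNReal.ofReal_toReal (good_vol_lt_top hg).ne]
  simp only [e1] at hc
  rw [e2] at hc
  exact cone_to_real n (fun i => add_nonneg (h.pos i).le (hξ i)) (fun i => ENNReal.toReal_nonneg)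
    ENNReal.toReal_nonneg hc

theorem tree_ok : ∀ (m : ℕ) (A : Set (Fin m → ℝ)) (z : Fin m → ℝ), Adm A z →
    (tree m A z).Ok := by
  intro m
  induction m with
  | zero =>
    intro A z _
    exact trivial
  | succ n ih =>
    intro A z h
    have hV : 0 < vT A z := vT_pos h
    have hα : 0 < vA A := vA_pos h.good
    have hζ : 0 < ∏ i, z i := Finset.prod_pos (fun i _ => h.pos i)
    have hfac : 0 < ((n + 1).factorial : ℝ) := by exact_mod_cast Nat.factorial_pos (n + 1)
    have hfn : 0 < (n.factorial : ℝ) := by exact_mod_cast Nat.factorial_pos n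
    have hn : 0 < (n : ℝ) + 1 := by positivity
    have hfs : ((n + 1).factorial : ℝ) = ((n : ℝ) + 1) * (n.factorial : ℝ) := by
      rw [Nat.factorial_succ]
      push_cast
      ring
    refine ⟨by positivity, by positivity, fun i => ih _ _ (adm_sec h i), ?_⟩
    have hcone := A_cone_real h
    have hterm : ∀ i : Fin (n + 1),
        (1 + (tree n (sec A i) (fun k => z (i.succAbove k))).u /
            (((n + 1).factorial : ℝ) * vT A z * ∏ j, z j)) *
          (tree n (sec A i) (fun k => z (i.succAbove k))).b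
        = (n.factorial : ℝ) / (∏ j, z j) *
          ((z i + vT (sec A i) (fun k => z (i.succAbove k)) / (((n : ℝ) + 1) * vT A z)) *
            vA (sec A i)) := by
      intro i
      rw [tree_u_eq n, tree_b_eq' n _ _ (adm_sec h i)]
      have hp : ∏ j, z j = z i * ∏ k : Fin n, z (i.succAbove k) := Fin.prod_univ_succAbove z i
      have hzi : 0 < z i := h.pos i
      have hpi : 0 < ∏ k : Fin n, z (i.succAbove k) := Finset.prod_pos (fun k _ => h.pos _)
      rw [hp, hfs]
      field_simp
    show ∑ i, (1 + (tree n (sec A i) (fun k => z (i.succAbove k))).u /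
            (((n + 1).factorial : ℝ) * vT A z * ∏ j, z j)) *
          (tree n (sec A i) (fun k => z (i.succAbove k))).b
        ≤ ((n + 1).factorial : ℝ) * vA A / ∏ j, z j
    rw [Finset.sum_congr rfl (fun i _ => hterm i), ← Finset.mul_sum]
    have h2 : (n.factorial : ℝ) / (∏ j, z j) * (((n : ℝ) + 1) * vA A)
        = ((n + 1).factorial : ℝ) * vA A / ∏ j, z j := by
      rw [hfs]
      field_simp
    rw [← h2]
    exact mul_le_mul_of_nonneg_left hcone (by positivity)

end Vale.Agent.Lib.P248.H37T
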