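import Mathlib
import Vale.Agent.Lib.P248.helper37.Q2Defs
import Vale.Agent.Lib.P248.helper37.Q2Hub
import Vale.Agent.Lib.P248.helper37.Q2TreeOk
import Vale.Agent.Lib.P248.helper37.Q2PolKLower
import Vale.Agent.Lib.P248.helper37.Q2TreeAlg

/-!
# P248 (helper37): the volume product of an anti-blocking body about any interior point

Assembly: from the local inequalities of the facet tree (`tree_ok`), the tree inequality
(`tree_alg`) and the lower bound for the parts of the polar (`polK_lower`) to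
`(m+1)^(m+1) / (m!)^2 ≤ |A| |(A - z)°|` on `Fin m → ℝ`.
-/

open MeasureTheory Set

namespace Vale.Agent.Lib.P248.H37Q

open Vale.Agent.Lib.P248.H37 Vale.Agent.Lib.P248.H37Q.Hub

theorem ofReal_sum_le' {ι : Type*} (s : Finset ι) (a : ι → ℝ) :
    ENNReal.ofReal (∑ k ∈ s, a k) ≤ ∑ k ∈ s, ENNReal.ofReal (a k) := by
  classical
  induction s using Finset.induction_on with
  | empty => simp
  | insert i s hi ih =>
    rw [Finset.sum_insert hi, Finset.sum_insert hi]
    exact le_trans ENNReal.ofReal_add_le (add_le_add le_rfl ih)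

theorem tree_b_eq : ∀ (m : ℕ) (A : Set (Fin m → ℝ)) (z : Fin m → ℝ), Adm A z →
    (tree m A z).b = (m.factorial : ℝ) * vA A / ∏ i, z i := by
  intro m
  cases m with
  | zero =>
    intro A z h
    have h1 : vA A = 1 := vA_dim_zero h.good
    show (1 : ℝ) = ((Nat.factorial 0 : ℕ) : ℝ) * vA A / ∏ i, z i
    rw [h1]
    simp
  | succ n =>
    intro A z _
    rfl

/-- The volume product of an anti-blocking body about an interior point, on `Fin m → ℝ`. -/
theorem q2_pi {m : ℕ} (A : Set (Fin m → ℝ)) (z : Fin m → ℝ) (h : Adm A z) :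
    ENNReal.ofReal (((m : ℝ) + 1) ^ (m + 1) / (m.factorial : ℝ) ^ 2) ≤
      volume A * volume (polZ A z) := by
  have hok := Vale.Agent.Lib.P248.H37T.tree_ok m A z h
  have halg := Vale.Agent.Lib.P248.H37A.tree_alg (tree m A z) hok
  have hb := tree_b_eq m A z h
  have hζ : 0 < ∏ i, z i := Finset.prod_pos (fun i _ => h.pos i)
  have hfac : 0 < (m.factorial : ℝ) := by exact_mod_cast Nat.factorial_pos m
  have hvA : 0 < vA A := vA_pos h.good
  have hAvol : volume A = ENNReal.ofReal (vA A) := by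
    unfold vA
    rw [ENNReal.ofReal_toReal (good_vol_lt_top h.good).ne]
  have hB : ∑ k ∈ Finset.range (m + 1), ENNReal.ofReal ((tree m A z).Om k /
      ((k.factorial : ℝ) * (m.factorial : ℝ) * ∏ i, z i)) ≤ volume (polZ A z) := by
    refine le_trans (Finset.sum_le_sum fun k _ => Vale.Agent.Lib.P248.H37L.polK_lower m A z h k)
      (polK_sum_le A z)
  have hB2 : ENNReal.ofReal (∑ k ∈ Finset.range (m + 1), (tree m A z).Om k /
      ((k.factorial : ℝ) * (m.factorial : ℝ) * ∏ i, z i)) ≤ volume (polZ A z) :=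
    le_trans (ofReal_sum_le' _ _) hB
  have hreal : ((m : ℝ) + 1) ^ (m + 1) / (m.factorial : ℝ) ^ 2 ≤
      vA A * ∑ k ∈ Finset.range (m + 1), (tree m A z).Om k /
        ((k.factorial : ℝ) * (m.factorial : ℝ) * ∏ i, z i) := by
    have e1 : vA A * ∑ k ∈ Finset.range (m + 1), (tree m A z).Om k /
        ((k.factorial : ℝ) * (m.factorial : ℝ) * ∏ i, z i)
        = ((tree m A z).b * ∑ k ∈ Finset.range (m + 1), (tree m A z).Om k / (k.factorial : ℝ))
          / (m.factorial : ℝ) ^ 2 := by
      rw [hb, Finset.mul_sum, Finset.mul_sum, Finset.sum_div]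
      refine Finset.sum_congr rfl fun k _ => ?_
      have hk : (k.factorial : ℝ) ≠ 0 := by exact_mod_cast (Nat.factorial_pos k).ne'
      field_simp
    rw [e1]
    exact div_le_div_of_nonneg_right halg (by positivity)
  calc ENNReal.ofReal (((m : ℝ) + 1) ^ (m + 1) / (m.factorial : ℝ) ^ 2)
      ≤ ENNReal.ofReal (vA A * ∑ k ∈ Finset.range (m + 1), (tree m A z).Om k /
        ((k.factorial : ℝ) * (m.factorial : ℝ) * ∏ i, z i)) := ENNReal.ofReal_le_ofReal hreal
    _ = ENNReal.ofReal (vA A) * ENNReal.ofReal (∑ k ∈ Finset.range (m + 1), (tree m A z).Om k /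
        ((k.factorial : ℝ) * (m.factorial : ℝ) * ∏ i, z i)) := ENNReal.ofReal_mul hvA.le
    _ ≤ volume A * volume (polZ A z) := by
      rw [hAvol]
      gcongr

end Vale.Agent.Lib.P248.H37Q
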